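import Vale.Agent.P011.D4Y.H63.RamOdd
import Vale.Agent.P011.D4Y.H553.Tow
import Vale.Agent.P011.D4X.H67.KCf

/-!
Block D4Y: the class of `(a, q)` over `L` does not change in a change of the quadratic field.
-/

open NumberField IsDedekindDomain

namespace Vale.Agent.P011.D4Y

open Vale.Agent.P011.Arith Vale.Agent.P011.MPQ Vale.Agent.P011.D4 Vale.Agent.P011.D4.Oct
  Vale.Agent.P011.E6 Vale.Agent.P011.D4X

section core

variable {k O : Type} [Field k] [Field O] [Algebra k O] {σ τ θ : O ≃ₐ[k] O}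

/-- The number `v τ(v)` up to a norm. -/
theorem Tits.core (hσ : ∀ x, σ (σ x) = x) (hτ : ∀ x, τ (τ x) = x)
    (hστ : ∀ x, σ (τ x) = τ (σ x)) (hθσ : ∀ x, θ (σ x) = σ (θ x))
    (hθτ : ∀ x, θ (τ x) = τ (θ x)) (h2 : (2 : O) ≠ 0) {α β lam v q x y z : O}
    (hα0 : α ≠ 0) (hσα : σ α = -α) (hτα : τ α = α) (hθα : θ α = α)
    (hσβ : σ β = β) (hτβ : τ β = -β) (hθβ : θ β = β)
    (hσx : σ x = x) (hτx : τ x = x) (hθx : θ x = x) (hσy : σ y = y) (hτy : τ y = y)
    (hθy : θ y = y) (hσz : σ z = z) (hτz : τ z = z) (hθz : θ z = z)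
    (hD : β * β = α * α * x ^ 2 + q * (y ^ 2 - α * α * z ^ 2))
    (hne : y ^ 2 - α * α * z ^ 2 ≠ 0) (hlam0 : lam ≠ 0) (hv0 : v ≠ 0) (hlam : lam * σ lam = q)
    (hv : τ lam * σ v = lam * v) (hθl : θ lam = lam) (hθv : θ v = v) :
    ∃ v' : O, σ v' = v' ∧ θ v' = v' ∧
      v * τ v * (β * β - α * α * x ^ 2) = -(α * α) * (v' * τ v') := by
  obtain ⟨ξ, hξ⟩ : ∃ ξ, ξ = β + x * α := ⟨_, rfl⟩
  obtain ⟨η, hη⟩ : ∃ η, η = y + z * α := ⟨_, rfl⟩
  have hσξ : σ ξ = β - x * α := by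
    rw [hξ, map_add, map_mul, hσβ, hσx, hσα]; ring
  have hτξ : τ ξ = -σ ξ := by
    rw [hσξ, hξ, map_add, map_mul, hτβ, hτx, hτα]; ring
  have hση : σ η = y - z * α := by
    rw [hη, map_add, map_mul, hσy, hσz, hσα]; ring
  have hτη : τ η = η := by
    rw [hη, map_add, map_mul, hτy, hτz, hτα]
  have hθξ : θ ξ = ξ := by rw [hξ, map_add, map_mul, hθβ, hθx, hθα]
  have hθη : θ η = η := by rw [hη, map_add, map_mul, hθy, hθz, hθα]
  have hηη : η * σ η = y ^ 2 - α * α * z ^ 2 := by rw [hση, hη]; ring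
  have hξξ : ξ * σ ξ = q * (η * σ η) := by
    rw [hηη, hσξ, hξ]
    linear_combination hD
  have hη0 : η ≠ 0 := fun h => hne (by rw [← hηη, h, zero_mul])
  have hση0 : σ η ≠ 0 := (map_ne_zero σ).2 hη0
  have hq0 : q ≠ 0 := by
    rw [← hlam]
    exact mul_ne_zero hlam0 ((map_ne_zero σ).2 hlam0)
  have hξ0 : ξ ≠ 0 := by
    intro h
    rw [h, zero_mul] at hξξ
    exact mul_ne_zero hq0 (mul_ne_zero hη0 hση0) hξξ.symm
  have hσξ0 : σ ξ ≠ 0 := (map_ne_zero σ).2 hξ0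
  obtain ⟨r, hr⟩ : ∃ r, r = lam * η / ξ := ⟨_, rfl⟩
  have hr0 : r ≠ 0 := by
    rw [hr]
    exact div_ne_zero (mul_ne_zero hlam0 hη0) hξ0
  have hrr : r * σ r = 1 := by
    rw [hr, map_div₀, map_mul, div_mul_div_comm, hξξ, div_eq_one_iff_eq
      (mul_ne_zero hq0 (mul_ne_zero hη0 hση0)), ← hlam]
    ring
  obtain ⟨x', hx', hz0, hz⟩ := H67.h90 hσ h2 hσα hα0 hrr
  obtain ⟨z0, hz0d⟩ : ∃ z0, z0 = x' + r * σ x' := ⟨_, rfl⟩
  rw [← hz0d] at hz0 hz
  have hθx' : θ x' = x' := by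
    rcases hx' with rfl | rfl
    · exact map_one θ
    · exact hθα
  have hθr : θ r = r := by rw [hr, map_div₀, map_mul, hθl, hθη, hθξ]
  have hθz0 : θ z0 = z0 := by
    rw [hz0d, map_add, map_mul, hθσ, hθx', hθr]
  have hσz0 : σ z0 ≠ 0 := (map_ne_zero σ).2 hz0
  have hτz0 : τ z0 ≠ 0 := (map_ne_zero τ).2 hz0
  have hστz0 : σ (τ z0) ≠ 0 := (map_ne_zero σ).2 hτz0
  -- the relation between `v` and `z0`
  have h1 : τ r * σ (τ z0) = τ z0 := by
    rw [hστ, ← map_mul, hz]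
  have h3 : -(τ r * σ ξ * σ v) = r * ξ * v := by
    have e1 : r * ξ = lam * η := by rw [hr]; field_simp
    have e2 : τ r * τ ξ = τ lam * η := by rw [← map_mul, e1, map_mul, hτη]
    rw [hτξ] at e2
    have e3 : τ r * σ ξ = -(τ lam * η) := by linear_combination -e2
    rw [e1, e3]
    linear_combination η * hv
  obtain ⟨v', hv'⟩ : ∃ v', v' = v * ξ / α * (z0 / τ z0) := ⟨_, rfl⟩
  have hσv0 : σ v ≠ 0 := (map_ne_zero σ).2 hv0
  refine ⟨v', ?_, ?_, ?_⟩
  · have e1 : r = z0 / σ z0 := by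
      rw [eq_div_iff hσz0]
      exact hz
    have e2 : τ r = τ z0 / σ (τ z0) := by
      rw [eq_div_iff hστz0]
      exact h1
    rw [e2, e1] at h3
    rw [hv', map_mul, map_div₀, map_div₀, map_mul, hσα]
    field_simp at h3 ⊢
    linear_combination h3
  · rw [hv', map_mul, map_div₀, map_div₀, map_mul, hθτ, hθv, hθξ, hθα, hθz0]
  · have e1 : ξ * τ ξ = -(β * β - α * α * x ^ 2) := by
      rw [hτξ, hσξ, hξ]
      ring
    have e2 : v' * τ v' = v * τ v * (ξ * τ ξ) / (α * α) := by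
      rw [hv', map_mul, map_div₀, map_div₀, map_mul, hτα, hτ]
      field_simp
    rw [e2, e1]
    field_simp

end core

section loc

variable {F : Type} [Field F] [NumberField F] {w : HeightOneSpectrum (𝓞 F)}

theorem Tits.mul_iff (u x y : Fˣ) : x * y ∈ NF u ⊔ LS (w.valuation F) ↔
    (x ∈ NF u ⊔ LS (w.valuation F) ↔ y ∈ NF u ⊔ LS (w.valuation F)) := by
  by_cases hu : u ∈ LS (w.valuation F)
  · rw [NF_sup_of_mem' _ hu]
    simp
  · exact Subgroup.mul_mem_iff_of_index_two (local_index_two w u hu)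

theorem Tits.symm_iff (u x : Fˣ) : x ∈ NF u ⊔ LS (w.valuation F) ↔
    u ∈ NF x ⊔ LS (w.valuation F) := ⟨fun h => mem_symm _ _ h, fun h => mem_symm _ _ h⟩

theorem Tits.prop {P Q R S : Prop} (h1 : R ↔ (P ↔ Q)) (h2 : S ↔ Q) : (S ↔ P) ↔ R := by
  tauto

/-- The relation `(A, m) = (A + m, - A m)`. -/
theorem Tits.rel {A m D : Fˣ} (hD : (D : F) = A + m) (hm : m ∈ NF A ⊔ LS (w.valuation F)) :
    -1 * A * m ∈ NF D ⊔ LS (w.valuation F) := by
  have h1 : m * D ∈ NF (A * D) ⊔ LS (w.valuation F) := by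
    refine Subgroup.mem_sup_left ⟨D, 1, ?_⟩
    rw [Units.val_mul, Units.val_mul, hD]
    ring
  have h2 : -1 * D ∈ NF D ⊔ LS (w.valuation F) := by
    refine Subgroup.mem_sup_left ⟨0, 1, ?_⟩
    rw [Units.val_mul, Units.val_neg, Units.val_one]
    ring
  have e1 := (Tits.mul_iff (w := w) (A * D) m D).1 h1
  have e8 := (Tits.mul_iff (w := w) D (-1) D).1 h2
  have e2 := Tits.symm_iff (w := w) (A * D) m
  have e3 := Tits.mul_iff (w := w) m A D
  have e6 := (Tits.symm_iff (w := w) A m).1 hm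
  have e7 := Tits.symm_iff (w := w) m D
  have g1 : m ∈ NF (A * D) ⊔ LS (w.valuation F) ↔ m ∈ NF D ⊔ LS (w.valuation F) :=
    ⟨fun h => e7.1 ((e3.1 (e2.1 h)).1 e6), fun h => e2.2 (e3.2 ⟨fun _ => e7.2 h, fun _ => e6⟩)⟩
  have e4 := Tits.symm_iff (w := w) (A * D) D
  have e5 := Tits.mul_iff (w := w) D A D
  have g2 := e4.trans e5
  have e9 := Tits.mul_iff (w := w) D (-1 * A) m
  have e10 := Tits.mul_iff (w := w) D (-1) A
  refine e9.2 ?_
  have g3 := (g1.symm.trans e1).trans g2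
  exact (iff_congr e10 Iff.rfl).2 (Tits.prop g3 e8)

/-- The local symbols after a change of the quadratic field. -/
theorem Tits.loc {a q D q1 : Fˣ} {x y z m n : F}
    (hD : (D : F) = a * x ^ 2 + q * (y ^ 2 - a * z ^ 2)) (hne : y ^ 2 - a * z ^ 2 ≠ 0)
    (hq1 : (q1 : F) * (D - a * x ^ 2) = -a * (m ^ 2 - D * n ^ 2))
    (h : q ∈ NF a ⊔ LS (w.valuation F)) : q1 ∈ NF D ⊔ LS (w.valuation F) := by
  obtain ⟨N, hN⟩ : ∃ N : Fˣ, (N : F) = y ^ 2 - a * z ^ 2 := ⟨Units.mk0 _ hne, rfl⟩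
  have hNa : N ∈ NF a ⊔ LS (w.valuation F) := Subgroup.mem_sup_left ⟨y, z, hN⟩
  have hqN : q * N ∈ NF a ⊔ LS (w.valuation F) := mul_mem h hNa
  have hD' : (D : F) - a * x ^ 2 = ((q * N : Fˣ) : F) := by
    rw [hD, Units.val_mul, hN]
    ring
  rw [hD'] at hq1
  have hM0 : m ^ 2 - D * n ^ 2 ≠ 0 := by
    intro h0
    rw [h0, mul_zero] at hq1
    exact mul_ne_zero q1.ne_zero (q * N).ne_zero hq1
  obtain ⟨M, hM⟩ : ∃ M : Fˣ, (M : F) = m ^ 2 - D * n ^ 2 := ⟨Units.mk0 _ hM0, rfl⟩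
  have hMD : M ∈ NF D ⊔ LS (w.valuation F) := Subgroup.mem_sup_left ⟨m, n, hM⟩
  have e1 : q1 * (q * N) = -1 * a * M := by
    apply Units.ext
    rw [Units.val_mul, hq1, Units.val_mul, Units.val_mul, Units.val_neg, Units.val_one, hM]
    ring
  have hsq : ∀ u : Fˣ, u ^ 2 ∈ NF D ⊔ LS (w.valuation F) := fun u =>
    Subgroup.mem_sup_right (Sq_le_LS _ ⟨u, rfl⟩)
  suffices h5 : -1 * a * (q * N) ∈ NF D ⊔ LS (w.valuation F) by
    have e2 : q1 * (q * N) ^ 2 = -1 * a * (q * N) * M := by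
      calc q1 * (q * N) ^ 2 = q1 * (q * N) * (q * N) := by rw [sq, ← mul_assoc q1]
        _ = -1 * a * M * (q * N) := by rw [e1]
        _ = -1 * a * (q * N) * M := by rw [mul_right_comm]
    have h6 : q1 * (q * N) ^ 2 ∈ NF D ⊔ LS (w.valuation F) := by
      rw [e2]
      exact mul_mem h5 hMD
    exact (Subgroup.mul_mem_cancel_right _ (hsq _)).1 h6
  by_cases hx : x = 0
  · have e3 : D = q * N := by
      apply Units.ext
      rw [← hD', hx]
      ring
    have h7 : a ∈ NF D ⊔ LS (w.valuation F) := by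
      rw [e3]
      exact mem_symm _ _ hqN
    have h8 : -1 * D ∈ NF D ⊔ LS (w.valuation F) := by
      refine Subgroup.mem_sup_left ⟨0, 1, ?_⟩
      rw [Units.val_mul, Units.val_neg, Units.val_one]
      ring
    rw [← e3, mul_right_comm]
    exact mul_mem h8 h7
  · obtain ⟨X, hX⟩ : ∃ X : Fˣ, (X : F) = x := ⟨Units.mk0 x hx, rfl⟩
    have h9 : q * N ∈ NF (a * X ^ 2) ⊔ LS (w.valuation F) := by
      rw [Tits.symm_iff]
      exact mul_mem (mem_symm _ _ hqN) (Subgroup.mem_sup_right (Sq_le_LS _ ⟨X, rfl⟩))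
    have h10 := Tits.rel (w := w) (A := a * X ^ 2) (m := q * N) (D := D) (by
      rw [← hD', Units.val_mul, Units.val_pow_eq_pow_val, hX]
      ring) h9
    have e4 : -1 * (a * X ^ 2) * (q * N) = -1 * a * (q * N) * X ^ 2 := by
      rw [← mul_assoc (-1), mul_right_comm]
    rw [e4] at h10
    exact (Subgroup.mul_mem_cancel_right _ (hsq _)).1 h10

end loc

section model

variable {k L E E1 O : Type} [Field k] [NumberField k] [Field L] [NumberField L] [Field E]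
  [Field E1] [Field O] [Algebra k L] [Algebra k E] [Algebra L E] [IsScalarTower k L E]
  [Algebra k E1] [Algebra L E1] [Algebra k O] [Algebra L O] [Algebra E O] [Algebra E1 O]
  [IsScalarTower k E O] [IsScalarTower k E1 O] [IsScalarTower L E O] [NeZero (2 : E)]
  {ρ σ ι : E ≃ₐ[k] E} {α : E} {a b c : kˣ} {q : Lˣ}
  {a1 : kˣ} {ρ1 σ1 ι1 : E1 ≃ₐ[k] E1} {α1 : E1} {ρ' σ' τ' ι' : O ≃ₐ[k] O} {q1 : Lˣ}

/-- **The class of `(a, q)` does not change**, and `HOdd` holds for the new parameters. -/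
theorem hodd_of (H : HyI ρ σ ι α a b c q)
    (T : TowI (L := L) ρ σ ι (a1 : k) ρ1 σ1 ι1 α1 ρ' σ' τ' ι')
    (hns : ∀ e : E, e * e ≠ algebraMap k E (a1 : k))
    (hw : ∃ w : Qt (up L a) q, w.re = 0 ∧ w * w = algebraMap k L (a1 : k) • 1)
    {lam v : O} (hlam0 : lam ≠ 0) (hv0 : v ≠ 0) (hlam : lam * σ' lam = algebraMap L O (q : L))
    (hv : τ' lam * σ' v = lam * v) (hιl : ι' lam = ρ' (ρ' lam)) (hιv : ι' v = ρ' (ρ' v))
    (hq1 : algebraMap L O (q1 : L) = v * τ' v) (hO : HOdd a q) : HOdd a1 q1 := by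
  obtain ⟨p, hp0, hp⟩ := hw
  have hD := congrArg QuaternionAlgebra.re hp
  simp only [QuaternionAlgebra.re_mul, QuaternionAlgebra.re_smul, QuaternionAlgebra.re_one,
    hp0, smul_eq_mul, mul_one, mul_zero, zero_mul, zero_add, add_zero] at hD
  obtain ⟨x, hx⟩ : ∃ x, x = p.imI := ⟨_, rfl⟩
  obtain ⟨y, hy⟩ : ∃ y, y = p.imJ := ⟨_, rfl⟩
  obtain ⟨z, hz⟩ : ∃ z, z = p.imK := ⟨_, rfl⟩
  have hDL : ((up L a1 : Lˣ) : L) = (up L a : Lˣ) * x ^ 2 +
      q * (y ^ 2 - (up L a : Lˣ) * z ^ 2) := by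
    rw [hx, hy, hz]
    change algebraMap k L (a1 : k) = _
    rw [← hD]
    ring
  have ho2 : (2 : O) ≠ 0 := by
    have h : (2 : O) = algebraMap E O 2 := (map_ofNat _ 2).symm
    rw [h]
    exact (map_ne_zero _).2 (NeZero.ne 2)
  have hαα : algebraMap E O α * algebraMap E O α = algebraMap L O ((up L a : Lˣ) : L) := by
    rw [← map_mul, H.α2, IsScalarTower.algebraMap_apply L E O]
    change _ = algebraMap E O (algebraMap L E (algebraMap k L (a : k)))
    rw [← IsScalarTower.algebraMap_apply k L E]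
  have hββ : algebraMap E1 O α1 * algebraMap E1 O α1 = algebraMap L O ((up L a1 : Lˣ) : L) := by
    rw [← map_mul, T.α12, IsScalarTower.algebraMap_apply L E O, ← IsScalarTower.algebraMap_apply,
      IsScalarTower.algebraMap_apply k E O]
    change _ = algebraMap E O (algebraMap L E (algebraMap k L (a1 : k)))
    rw [← IsScalarTower.algebraMap_apply k L E]
  have hneL : y ^ 2 - ((up L a : Lˣ) : L) * z ^ 2 ≠ 0 := by
    intro h0
    rw [h0, mul_zero, add_zero] at hDL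
    apply hns (algebraMap L E x * α)
    have h1 := congrArg (algebraMap L E) hDL
    change algebraMap L E (algebraMap k L (a1 : k)) =
      algebraMap L E (algebraMap k L (a : k) * x ^ 2) at h1
    rw [map_mul, ← IsScalarTower.algebraMap_apply, ← IsScalarTower.algebraMap_apply,
      map_pow] at h1
    rw [h1, ← H.α2]
    ring
  have hLσ : ∀ t : L, σ' (algebraMap L O t) = algebraMap L O t := fun t => by
    rw [IsScalarTower.algebraMap_apply L E O, T.σE, H.σL]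
  have hLτ : ∀ t : L, τ' (algebraMap L O t) = algebraMap L O t := fun t => by
    rw [IsScalarTower.algebraMap_apply L E O, T.τE]
  have hLθ : ∀ t : L, ρ' (ι' (algebraMap L O t)) = algebraMap L O t := fun t => by
    rw [IsScalarTower.algebraMap_apply L E O, T.ιE, H.ιL, T.ρE, H.ρ3]
  -- the element `v'`
  obtain ⟨v', h1, h2, h3⟩ := Tits.core (σ := σ') (τ := τ') (θ := ι'.trans ρ')
    (α := algebraMap E O α) (β := algebraMap E1 O α1) (lam := lam) (v := v)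
    (q := algebraMap L O (q : L)) (x := algebraMap L O x) (y := algebraMap L O y)
    (z := algebraMap L O z) T.σ2 T.τ2 T.στ
    (fun t => by
      change ρ' (ι' (σ' t)) = σ' (ρ' (ι' t))
      rw [T.ισ, T.σρ])
    (fun t => by
      change ρ' (ι' (τ' t)) = τ' (ρ' (ι' t))
      rw [T.ιτ, T.τρ]) ho2
    ((map_ne_zero _).2 H.al0) (by rw [T.σE, H.σα, map_neg]) (T.τE α)
    (by
      change ρ' (ι' (algebraMap E O α)) = _
      rw [T.ιE, H.ια, T.ρE, H.ρα])
    (T.σE1 α1) (by rw [T.τE1, T.σα1, map_neg])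
    (by
      change ρ' (ι' (algebraMap E1 O α1)) = _
      rw [T.ιE1, T.ια1, T.ρE1, T.ρα1])
    (hLσ x) (hLτ x) (hLθ x) (hLσ y) (hLτ y) (hLθ y) (hLσ z) (hLτ z) (hLθ z)
    (by
      rw [hαα, hββ, hDL]
      simp only [map_add, map_sub, map_mul, map_pow])
    (by
      rw [hαα, ← map_pow, ← map_pow, ← map_mul, ← map_sub]
      exact (map_ne_zero _).2 hneL) hlam0 hv0 hlam hv
    (by
      change ρ' (ι' lam) = lam
      rw [hιl, T.ρ3])
    (by
      change ρ' (ι' v) = v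
      rw [hιv, T.ρ3])
  have h2' : ι' v' = ρ' (ρ' v') := by
    have h4 : ρ' (ι' v') = v' := h2
    have h5 := congrArg (fun t => ρ' (ρ' t)) h4
    change ρ' (ρ' (ρ' (ι' v'))) = _ at h5
    rw [T.ρ3] at h5
    exact h5
  -- descent to `L`
  have hdesc : ∀ u : O, σ' u = u → τ' u = u → ι' u = ρ' (ρ' u) →
      ∃ t : L, algebraMap L O t = u := by
    intro u hu1 hu2 hu3
    obtain ⟨e, rfl⟩ := T.fixτ u hu2
    rw [T.σE] at hu1
    rw [T.ιE, T.ρE, T.ρE] at hu3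
    obtain ⟨t, ht⟩ := H.fixL e ((algebraMap E O).injective hu1) ((algebraMap E O).injective hu3)
    exact ⟨t, by rw [IsScalarTower.algebraMap_apply L E O, ht]⟩
  obtain ⟨β, hβ⟩ : ∃ β, β = algebraMap E1 O α1 := ⟨_, rfl⟩
  rw [← hβ] at h3 hββ
  have hβ0 : β ≠ 0 := by
    intro h0
    rw [h0, mul_zero] at hββ
    exact (map_ne_zero (algebraMap L O)).2 (up L a1).ne_zero hββ.symm
  have hσβ : σ' β = β := by rw [hβ, T.σE1]
  have hτβ : τ' β = -β := by rw [hβ, T.τE1, T.σα1, map_neg]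
  have hρβ : ρ' β = β := by rw [hβ, T.ρE1, T.ρα1]
  have hιβ : ι' β = β := by rw [hβ, T.ιE1, T.ια1]
  have hστ' : σ' (τ' v') = τ' v' := by rw [T.στ, h1]
  have hιτ' : ι' (τ' v') = ρ' (ρ' (τ' v')) := by rw [T.ιτ, h2', T.τρ, T.τρ]
  obtain ⟨m, hm⟩ := hdesc ((v' + τ' v') / 2)
    (by rw [map_div₀, map_add, h1, hστ', map_ofNat])
    (by rw [map_div₀, map_add, T.τ2, map_ofNat, add_comm])
    (by simp only [map_div₀, map_add, h2', hιτ', map_ofNat])
  obtain ⟨n, hn⟩ := hdesc ((v' - τ' v') / (2 * β))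
    (by rw [map_div₀, map_sub, map_mul, h1, hστ', hσβ, map_ofNat])
    (by
      rw [map_div₀, map_sub, map_mul, T.τ2, map_ofNat, hτβ]
      field_simp
      ring)
    (by simp only [map_div₀, map_sub, map_mul, h2', hιτ', map_ofNat, hιβ, hρβ])
  have hv'1 : v' * τ' v' = algebraMap L O (m ^ 2 - (up L a1 : Lˣ) * n ^ 2) := by
    rw [map_sub, map_mul, map_pow, map_pow, ← hββ, hm, hn]
    field_simp
    ring
  have hfin : (q1 : L) * ((up L a1 : Lˣ) - (up L a : Lˣ) * x ^ 2) =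
      -(up L a : Lˣ) * (m ^ 2 - (up L a1 : Lˣ) * n ^ 2) := by
    apply (algebraMap L O).injective
    rw [map_mul, hq1, map_sub, map_mul, map_mul, map_neg, ← hv'1, ← hαα, ← hββ, map_pow]
    exact h3
  intro v0 w0 hvw hR
  refine hO v0 w0 hvw ?_
  intro hcon
  exact hR (Tits.loc hDL hneL hfin hcon)

end model

end Vale.Agent.P011.D4Y
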