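import Vale.Agent.P011.D4Y.H63.KCc
import Vale.Agent.P011.D4Y.H63.Tits
import Vale.Agent.P011.D4Y.H62.KC
import Vale.Agent.P011.D4Y.H547.KCr
import Vale.Agent.P011.D4Y.H862.Bas
import Vale.Agent.P011.D4Y.H68.Nf
import Vale.Agent.P011.D4X.H553.KC

/-!
Block D4Y: the change of the quadratic field, one existence theorem.
-/

open NumberField

namespace Vale.Agent.P011.D4Y

open Vale.Agent.P011.MPQ Vale.Agent.P011.D4 Vale.Agent.P011.D4.Oct Vale.Agent.P011.E6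
open Vale.Agent.P011.D4X Vale.Agent.P011.D4X.KCx

section kcx

variable {k L E E1 O : Type} [Field k] [NumberField k] [Field L] [NumberField L] [Field E]
  [Field E1] [Field O] [Algebra k L]
  [Algebra k E] [Algebra L E] [Algebra k E1] [Algebra L E1] [Algebra k O] [Algebra L O]
  [Algebra E O] [Algebra E1 O] [IsScalarTower k L E] [IsScalarTower k L E1]
  [IsScalarTower k L O]
  [IsScalarTower k E O] [IsScalarTower k E1 O] [IsScalarTower L E O] [IsScalarTower L E1 O]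
  {a b c a1 b1 c1 : kˣ} {q : Lˣ}

/-- The properties of the change of the quadratic field to `k(√D)`. -/
structure KCXI (ρ σ ι : E ≃ₐ[k] E) (α : E) (D : k) (w0 : Qt a b)
    (w : Qt (up L a) (q * up L b)) (ρ1 σ1 ι1 : E1 ≃ₐ[k] E1) (α1 : E1)
    (ρ' σ' τ' ι' : O ≃ₐ[k] O)
    (q1 : Lˣ) (u : OctL O a1 b1 c1 ≃ₗ[O] OctL O a b c)
    (φ : ATI ρ σ ι α a b c q ≃* ATI ρ1 σ1 ι1 α1 a1 b1 c1 q1) : Prop where
  T : TowI (L := L) ρ σ ι D ρ1 σ1 ι1 α1 ρ' σ' τ' ι'
  H1 : HyI ρ1 σ1 ι1 α1 a1 b1 c1 q1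
  ha1 : (a1 : k) = D
  K : H62.KCHI ρ σ ι ρ1 σ1 ι1 ρ' σ' τ' ι' α α1 q q1 u
  rel : ∀ z : ATI ρ σ ι α a b c q, D4X.H62.Rel u z.1 (φ z).1
  eqv : ∀ (z : ATI ρ σ ι α a b c q) (Z : OctL O a b c ≃ₗ[O] OctL O a b c),
    D4X.H62.IsBc O z.1 Z →
    ∀ x : OctL E1 a1 b1 c1, u (D4X.H62.oin O ((φ z).1 x)) = Z (u (D4X.H62.oin O x))
  kp : ∀ (z : ATI ρ σ ι α a b c q) (κ : Lˣ), IsKapI ρ z.1 κ ↔ IsKapI ρ1 (φ z).1 κ
  st0 : ∀ z : ATI ρ σ ι α a b c q, z ∈ stab0I ρ σ ι α a b c q ↔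
    φ z ∈ stab0I ρ1 σ1 ι1 α1 a1 b1 c1 q1
  zf : ∀ (z : ATI ρ σ ι α a b c q) (l r r' : L) (r0 r0' : k) (s : kˣ),
    (∀ y, z.1 y = ρ (algebraMap L E l) •
      zFI ρ α q (r0 • 1 + r0' • w0) (r • 1 + r' • w) s y) →
      ∀ y, (φ z).1 y = ρ1 (algebraMap L E1 l) • zFI ρ1 α1 q1 (r0 • 1 + r0' • ⟨0, 1, 0, 0⟩)
        (r • 1 + r' • ⟨0, 1, 0, 0⟩) s y
  ho : HOdd a q → HOdd a1 q1
  /-- the change of coordinates carries the tori of the standard directions to those of `w0`,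
  `w` -/
  uz : ∀ (r r' r0 r0' g : O) (x : OctL O a1 b1 c1),
    u (zFun ρ' (r • 1 + r' • ⟨0, 1, 0, 0⟩) (r0 • 1 + r0' • ⟨0, 1, 0, 0⟩) g x) =
      zFun ρ' (r • 1 + r' • D4X.H62.qin O (psiL α q w : Qt (up E a) (up E b)))
        (r0 • 1 + r0' • qup O w0) g (u x)
  /-- the involution `I` -/
  uI : ∀ x, omap ι' (star (u x)) = u (omap ι' (star x))
  /-- the relation of the two parameters -/
  lv : ∃ lam v : O, lam ≠ 0 ∧ v ≠ 0 ∧ lam * σ' lam = algebraMap L O (q : L) ∧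
    τ' lam * σ' v = lam * v ∧ algebraMap L O (q1 : L) = v * τ' v
  /-- the signs of the two parameters -/
  sg : ∀ v : L →+* ℝ, v (algebraMap k L a) < 0 → v (algebraMap k L a1) < 0 →
    0 < v (q : L) * v (q1 : L)

end kcx

section zf

variable {k L E E1 O : Type} [Field k] [Field L] [Field E]
  [Field E1] [Field O] [Algebra k L]
  [Algebra k E] [Algebra L E] [Algebra k E1] [Algebra L E1] [Algebra k O] [Algebra L O]
  [Algebra E O] [Algebra E1 O] [IsScalarTower k L E] [IsScalarTower k L E1]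
  [IsScalarTower k L O]
  [IsScalarTower k E O] [IsScalarTower k E1 O] [IsScalarTower L E O] [IsScalarTower L E1 O]
  {a b c a1 b1 c1 : kˣ} {q q1 : Lˣ}
  {ρ σ ι : E ≃ₐ[k] E} {α : E} {D : k} {w0 : Qt a b}
  {w : Qt (up L a) (q * up L b)} {ρ1 σ1 ι1 : E1 ≃ₐ[k] E1} {α1 : E1}
  {ρ' σ' τ' ι' : O ≃ₐ[k] O}
  {u : OctL O a1 b1 c1 ≃ₗ[O] OctL O a b c}
  {φ : ATI ρ σ ι α a b c q ≃* ATI ρ1 σ1 ι1 α1 a1 b1 c1 q1}

omit [IsScalarTower k L E] in
theorem KCx.zFI_eq (x0 : Qt a b) (x : Qt (up L a) (q * up L b))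
    (s : kˣ) (y : OctL E a b c) : zFI ρ α q x0 x s y = zFun ρ (psiL α q x) (qup E x0)
      (algebraMap L E (nrd x) * ρ (ρ (algebraMap L E (nrd x))) / algebraMap k E (s : k)) y := rfl

omit [IsScalarTower k L O] in
/-- The formula on the tori. -/
theorem KCx.zf_ofI (T : TowI (L := L) ρ σ ι D ρ1 σ1 ι1 α1 ρ' σ' τ' ι') (ha1 : (a1 : k) = D)
    (hw0 : w.re = 0) (hw : w * w = algebraMap k L D • (1 : Qt (up L a) (q * up L b)))
    (hu : ∀ (r r' r0 r0' g : O) (x : OctL O a1 b1 c1),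
        u (zFun ρ' (r • 1 + r' • ⟨0, 1, 0, 0⟩) (r0 • 1 + r0' • ⟨0, 1, 0, 0⟩) g x) =
          zFun ρ' (r • 1 + r' • D4X.H62.qin O (psiL α q w : Qt (up E a) (up E b)))
            (r0 • 1 + r0' • qup O w0) g (u x))
    (eqv : ∀ (z : ATI ρ σ ι α a b c q) (Z : OctL O a b c ≃ₗ[O] OctL O a b c),
      D4X.H62.IsBc O z.1 Z →
      ∀ x : OctL E1 a1 b1 c1, u (D4X.H62.oin O ((φ z).1 x)) = Z (u (D4X.H62.oin O x)))
    (z : ATI ρ σ ι α a b c q) (l r r' : L) (r0 r0' : k) (s : kˣ)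
    (hz : ∀ y, z.1 y = ρ (algebraMap L E l) •
      zFI ρ α q (r0 • 1 + r0' • w0) (r • 1 + r' • w) s y)
    (y : OctL E1 a1 b1 c1) : (φ z).1 y = ρ1 (algebraMap L E1 l) •
      zFI ρ1 α1 q1 (r0 • 1 + r0' • ⟨0, 1, 0, 0⟩) (r • 1 + r' • ⟨0, 1, 0, 0⟩) s y := by
  -- the norms
  have hn : nrd (r • 1 + r' • w) = nrd (r • 1 + r' • (⟨0, 1, 0, 0⟩ :
      Qt (up L a1) (q1 * up L b1))) := by
    rw [nrd_tor hw0 hw, nrd_i, ← ha1]
    rfl
  obtain ⟨n, hn'⟩ : ∃ n, n = nrd (r • 1 + r' • w) := ⟨_, rfl⟩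
  simp only [KCx.zFI_eq, ← hn'] at hz
  rw [KCx.zFI_eq, ← hn, ← hn']
  obtain ⟨Z, hZ⟩ := D4X.H62.exists_bc (O := O) z.1
  set g : E := algebraMap L E n * ρ (ρ (algebraMap L E n)) / algebraMap k E (s : k) with hg
  set g1 : E1 := algebraMap L E1 n * ρ1 (ρ1 (algebraMap L E1 n)) / algebraMap k E1 (s : k)
    with hg1
  have hLL : ∀ t : L, algebraMap E O (algebraMap L E t) = algebraMap E1 O (algebraMap L E1 t) :=
    fun t => by
      rw [← IsScalarTower.algebraMap_apply L E O, ← IsScalarTower.algebraMap_apply L E1 O]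
  have hgg : algebraMap E O g = algebraMap E1 O g1 := by
    rw [hg, hg1, map_div₀, map_div₀, map_mul, map_mul, ← T.ρE, ← T.ρE, ← T.ρE1, ← T.ρE1,
      hLL, ← IsScalarTower.algebraMap_apply k E O, ← IsScalarTower.algebraMap_apply k E1 O]
  have hll : algebraMap E O (ρ (algebraMap L E l)) = algebraMap E1 O (ρ1 (algebraMap L E1 l)) := by
    rw [← T.ρE, ← T.ρE1, hLL]
  have hZf : ∀ v : OctL O a b c, Z v = algebraMap E O (ρ (algebraMap L E l)) •
      zFun ρ' (algebraMap L O r • 1 + algebraMap L O r' •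
        D4X.H62.qin O (psiL α q w : Qt (up E a) (up E b)))
        (algebraMap k O r0 • 1 + algebraMap k O r0' • qup O w0) (algebraMap E O g) v := by
    intro v
    have hX : D4X.H62.qin O (psiL α q (r • 1 + r' • w) : Qt (up E a) (up E b)) =
        algebraMap L O r • 1 + algebraMap L O r' •
          D4X.H62.qin O (psiL α q w : Qt (up E a) (up E b)) := by
      rw [psiL_add, psiL_smul, psiL_smul, psiL_one, D4X.H62.qin_add, D4X.H62.qin_smul,
        D4X.H62.qin_smul,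
        qin_one, ← IsScalarTower.algebraMap_apply L E O, ← IsScalarTower.algebraMap_apply L E O]
    have hW : D4X.H62.qin O (qup E (r0 • 1 + r0' • w0)) =
        algebraMap k O r0 • 1 + algebraMap k O r0' • qup O w0 := by
      rw [qin_qup, qup_add, qup_smul, qup_smul, qup_one]
    rw [← hX, ← hW]
    refine D4X.H62.ext_oin (F := E) (f := fun v => Z v)
      (g := fun v => algebraMap E O (ρ (algebraMap L E l)) •
        zFun ρ' (D4X.H62.qin O (psiL α q (r • 1 + r' • w) : Qt (up E a) (up E b)))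
          (D4X.H62.qin O (qup E (r0 • 1 + r0' • w0))) (algebraMap E O g) v)
      (fun x y => map_add Z x y) (fun x y => ?_) (map_zero Z) ?_ (fun t x => ?_) v
    · rw [zFun_add, smul_add]
    · have h := zFun_smul (ρ := ρ') (D4X.H62.qin O (psiL α q (r • 1 + r' • w) :
        Qt (up E a) (up E b))) (D4X.H62.qin O (qup E (r0 • 1 + r0' • w0))) (algebraMap E O g) 0
        (0 : OctL O a b c)
      rw [zero_smul, zero_smul] at h
      change _ • zFun ρ' _ _ _ 0 = 0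
      rw [h, smul_zero]
    · change Z (t • D4X.H62.oin O x) = _ • zFun ρ' _ _ _ (t • D4X.H62.oin O x)
      rw [map_smul, hZ, hz, D4X.H62.oin_smul, zFun_smul, zFun_oin T.ρE, smul_comm t]
  apply D4X.H62.oin_inj (O := O)
  apply u.injective
  rw [eqv z Z hZ, hZf, ← hu, ← map_smul, hll, hgg, D4X.H62.oin_smul]
  congr 2
  have hX1 : (algebraMap L O r • 1 + algebraMap L O r' • ⟨0, 1, 0, 0⟩ :
      Qt (up O a1) (up O b1)) =
      D4X.H62.qin O (psiL α1 q1 (r • 1 + r' • ⟨0, 1, 0, 0⟩) : Qt (up E1 a1) (up E1 b1)) := by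
    rw [psiL_add, psiL_smul, psiL_smul, psiL_one, psiL_i, D4X.H62.qin_add, D4X.H62.qin_smul,
      D4X.H62.qin_smul, qin_one, ← IsScalarTower.algebraMap_apply L E1 O,
      ← IsScalarTower.algebraMap_apply L E1 O]
    congr 2
    apply QuaternionAlgebra.ext
    · exact (map_zero _).symm
    · exact (map_one _).symm
    · exact (map_zero _).symm
    · exact (map_zero _).symm
  have hW1 : (algebraMap k O r0 • 1 + algebraMap k O r0' • ⟨0, 1, 0, 0⟩ :
      Qt (up O a1) (up O b1)) =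
      D4X.H62.qin O (qup E1 (r0 • 1 + r0' • ⟨0, 1, 0, 0⟩)) := by
    rw [qin_qup, qup_add, qup_smul, qup_smul, qup_one]
    congr 2
    apply QuaternionAlgebra.ext
    · exact (map_zero _).symm
    · exact (map_one _).symm
    · exact (map_zero _).symm
    · exact (map_zero _).symm
  rw [hX1, hW1, zFun_oin T.ρE1]

end zf

section main

variable {k L E : Type} [Field k] [NumberField k] [Field L] [NumberField L] [Field E]
  [Algebra k L] [Algebra k E] [Algebra L E] [IsScalarTower k L E]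
  {ρ σ ι : E ≃ₐ[k] E} {α : E} {a b c : kˣ} {q : Lˣ}

/-- **KC.** The change of the quadratic field. -/
theorem exists_kcxI (H : HyI ρ σ ι α a b c q) {D : k} (hD0 : D ≠ 0)
    (hsgn : ∀ τ : k →+* ℝ, τ D < 0 → τ (a : k) < 0) (hD : ∀ x : E, x * x ≠ algebraMap k E D)
    {w0 : Qt a b} (hw0 : w0.re = 0) (hw0' : w0 * w0 = D • 1)
    {w : Qt (up L a) (q * up L b)} (hw : w.re = 0) (hw' : w * w = algebraMap k L D • 1)
    (hwq : ∃ p : Qt (up L a) q, p.re = 0 ∧ p * p = algebraMap k L D • 1) :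
    ∃ (E1 O : Type) (_ : Field E1) (_ : Field O) (_ : Algebra k E1) (_ : Algebra L E1)
      (_ : Algebra k O) (_ : Algebra L O) (_ : Algebra E O) (_ : Algebra E1 O)
      (_ : IsScalarTower k L E1) (_ : IsScalarTower k E O) (_ : IsScalarTower k E1 O)
      (_ : IsScalarTower L E O) (_ : IsScalarTower L E1 O) (_ : IsScalarTower k L O)
      (_ : NumberField E1) (_ : NumberField O) (ρ1 σ1 ι1 : E1 ≃ₐ[k] E1) (α1 : E1)
      (ρ' σ' τ' ι' : O ≃ₐ[k] O) (a1 b1 c1 : kˣ) (q1 : Lˣ)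
      (u : OctL O a1 b1 c1 ≃ₗ[O] OctL O a b c)
      (φ : ATI ρ σ ι α a b c q ≃* ATI ρ1 σ1 ι1 α1 a1 b1 c1 q1),
      KCXI ρ σ ι α D w0 w ρ1 σ1 ι1 α1 ρ' σ' τ' ι' q1 u φ := by
  have hnE := H.numberField
  obtain ⟨E1, O, _, _, _, _, _, _, _, _, _, _, _, _, _, _, _, _, ρ1, σ1, ι1, α1, ρ', σ', τ', ι',
    T⟩ := exists_towI H hD
  obtain ⟨a1, ha1⟩ : ∃ a1 : kˣ, (a1 : k) = D := ⟨Units.mk0 D hD0, rfl⟩
  obtain ⟨j1, hj0, hj1, hj⟩ := exists_anti (w := w0) hw0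
  have hnj : nrd j1 ≠ 0 := fun h => hj1 (H.hdiv.aniso j1 h)
  obtain ⟨b1, hb1⟩ : ∃ b1 : kˣ, (b1 : k) = -nrd j1 := ⟨Units.mk0 _ (neg_ne_zero.2 hnj), rfl⟩
  have hmq : mq a b (algebraMap E O α) (algebraMap L O (q : L)) =
      D4X.H62.qin O (mq a b α (algebraMap L E (q : L))) := by
    rw [D4X.H62.qin_mq, ← IsScalarTower.algebraMap_apply L E O]
  have h2O : NeZero (2 : O) := ⟨two_ne_zero⟩
  obtain ⟨c1, q1O, u, e, f, s, t, he, hf, hs, ht, hN, hσq1, hτq1, hιq1, hu1, hbil, hJ, hJ1, hut,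
      huz, hI, lam, v, hlam0, hv0, hlam, hlv, hq1v, hιlam, hιv⟩ :=
    H63.kcb_iota' (ρ := ρ') (σ := σ') (τ := τ') (ι := ι') (a := a) (b := b) (a1 := a1)
      (b1 := b1) T.ρ3 T.σ2 T.τ2 T.σρ T.τρ T.στ T.ιρ T.ισ T.ιτ T.hfix
      (α := algebraMap E O α) (by rw [T.σE, H.σα, map_neg]) (by rw [T.ρE, H.ρα]) (T.τE α)
      (by rw [T.ιE, H.ια])
      (by rw [← map_mul, H.α2, ← IsScalarTower.algebraMap_apply])
      (β := algebraMap E1 O α1) (T.σE1 α1) (by rw [T.τE1, T.σα1, map_neg])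
      (by rw [T.ρE1, T.ρα1]) (by rw [T.ιE1, T.ια1])
      (by rw [← map_mul, T.α12, ha1, ← IsScalarTower.algebraMap_apply])
      (q := algebraMap L O (q : L))
      (by
        rw [H67.N3, IsScalarTower.algebraMap_apply L E O, T.ρE, T.ρE, ← map_mul, ← map_mul,
          H.hq, map_one])
      (by rw [IsScalarTower.algebraMap_apply L E O, T.σE, H.σL])
      (by rw [IsScalarTower.algebraMap_apply L E O, T.τE])
      (by rw [IsScalarTower.algebraMap_apply L E O, T.ιE, H.ιL, T.ρE, T.ρE])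
      (i1 := w0) (j1 := j1) hw0 hj0 (by rw [nrd_of_sq hw0 hw0', ha1]) (by rw [hb1, neg_neg]) hj
      (p := D4X.H62.qin O (psiL α q w))
      (by
        rw [D4X.H62.re_qin]
        change algebraMap E O (algebraMap L E w.re) = 0
        rw [hw, map_zero, map_zero])
      (by
        rw [nrd_qin, H.nrd_psiL, nrd_of_sq hw hw', ← map_mul, T.α12, map_neg, map_neg,
          ← IsScalarTower.algebraMap_apply, ← IsScalarTower.algebraMap_apply,
          ← IsScalarTower.algebraMap_apply])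
      (by
        apply QuaternionAlgebra.ext
        · exact T.τE _
        · exact T.τE _
        · exact T.τE _
        · exact T.τE _)
      (by
        rw [hmq, D4X.H62.qmap_qin T.σE, ← D4X.H62.qin_mul, ← D4X.H62.qin_mul, H.psiL_comm])
      (by
        rw [D4X.H62.qmap_qin T.ιE, H.psiL_iota, ← D4X.H62.qmap_qin T.ρE,
          ← D4X.H62.qmap_qin T.ρE])
      c
  obtain ⟨q1, hq1, H1⟩ := hy_newI (a1 := a1) (b1 := b1) (c1 := c1) H (by rw [ha1]; exact T)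
    (by rw [ha1]; exact hsgn) ⟨w0, hw0, by rw [ha1]; exact hw0'⟩ hN hσq1 hτq1 hιq1 u hbil hJ hJ1
    hI hlam0 hv0 hlam hlv hq1v
  have K : H62.KCHI ρ σ ι ρ1 σ1 ι1 ρ' σ' τ' ι' α α1 q q1 u :=
    { hρ := T.ρE
      hσ := T.σE
      hτ := T.τE
      fτ := T.fixτ
      hρ1 := T.ρE1
      hσ1 := T.σE1
      hτ1 := T.τE1
      fσ := T.fixσ
      hu := ⟨e, he, hu1⟩
      hJ := ⟨s, hs, hJ⟩
      hJ1 := ⟨t, ht, by rw [hq1]; exact hJ1⟩
      ht := hut
      hι := T.ιE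
      hι1 := T.ιE1
      hI := ⟨1, one_ne_zero, fun x => by rw [one_smul, hI]⟩ }
  obtain ⟨φ, hrel, heqv, hkp, hst⟩ := K.exists_equiv
  refine ⟨E1, O, inferInstance, inferInstance, inferInstance, inferInstance, inferInstance,
    inferInstance, inferInstance, inferInstance, inferInstance, inferInstance, inferInstance,
    inferInstance, inferInstance, inferInstance, inferInstance, inferInstance, ρ1, σ1, ι1, α1, ρ',
    σ', τ', ι', a1, b1, c1, q1, u, φ, T, H1, ha1, K, hrel, heqv, hkp, hst,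
    KCx.zf_ofI T ha1 hw hw' huz heqv, fun hO => ?_, huz, hI,
    ⟨lam, v, hlam0, hv0, hlam, hlv, by rw [hq1]; exact hq1v⟩, fun x hx hx1 => ?_⟩
  · subst ha1
    exact hodd_of H T hD hwq hlam0 hv0 hlam hlv hιlam hιv (by rw [hq1, hq1v]) hO
  · exact sign_q1I (a1 := a1) H (by rw [ha1]; exact T) hx hx1 hN hq1 hlam0 hv0 hlam hlv hq1v

end main

end Vale.Agent.P011.D4Y
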