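import Vale.Agent.P011.D4Y.H63.RamOdd
import Vale.Agent.P011.D4Y.H657.Bas
import Vale.Agent.P011.D4Y.H68.AutI
import Vale.Agent.P011.D4Y.H68.Nf
import Vale.Agent.P011.D4X.H63.MixB

/-!
Block D4Y: the elements `s⁻¹ z(x₀, x; s²)` with `nrd x₀ = nrd x = s`.
-/

open NumberField Topology

set_option linter.unusedSectionVars false

namespace Vale.Agent.P011.D4Y

open Vale.Agent.P011.MPQ Vale.Agent.P011.D4 Vale.Agent.P011.D4.Oct Vale.Agent.P011.E6
open Vale.Agent.P011.D4X

section mix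

variable {k L E : Type} [Field k] [NumberField k] [Field L] [NumberField L] [Field E]
  [Algebra k L] [Algebra k E] [Algebra L E]
  [IsScalarTower k L E] [NeZero (2 : E)] {ρ σ ι : E ≃ₐ[k] E} {α : E}
  {a b c : kˣ} {q : Lˣ} (H : HyI ρ σ ι α a b c q)

/-- The elements `z(x₀, x; s²)` with `nrd x₀ = nrd x = s`. -/
theorem Mix.zFI_eq (x0 : Qt a b) {x : Qt (up L a) (q * up L b)} {s : kˣ}
    (h1 : nrd x = algebraMap k L (s : k)) (y : OctL E a b c) :
    zFI ρ α q x0 x (s ^ 2) y = zFun ρ (psiL α q x) (qup E x0) 1 y := by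
  have hs : algebraMap k E (s : k) ≠ 0 := (map_ne_zero _).2 s.ne_zero
  have e0 : algebraMap L E (algebraMap k L (s : k)) = algebraMap k E (s : k) :=
    (IsScalarTower.algebraMap_apply k L E _).symm
  have e1 : algebraMap L E (nrd x) * ρ (ρ (algebraMap L E (nrd x))) /
      algebraMap k E ((s ^ 2 : kˣ) : k) = 1 := by
    rw [h1, e0, ρ.commutes, ρ.commutes, Units.val_pow_eq_pow_val, ← sq, map_pow]
    exact div_self (pow_ne_zero 2 hs)
  rw [zFI, e1]
  rfl

include H

/-- **F1d**, from the case of elements with a common good discriminant. -/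
theorem mix_mem_of (hO : HOdd a q)
    (hshort : ∀ (x : SL1 (up L a) (q * up L b)) (g : OctL E a b c ≃ₗ[E] OctL E a b c),
      (∀ y : OctL E a b c, g y = shortFun ρ (psiL α q ((x : (Qt (up L a) (q * up L b))ˣ) :
        Qt (up L a) (q * up L b))) y) → g ∈ RsI ρ σ ι α a b c q)
    (hmid : ∀ (s : kˣ) (u : k) (D : kˣ) (w : Qt a b) (p : Qt (up L a) (q * up L b)),
      (D : k) = u ^ 2 - 4 * s → GoodD a b q (D : k) → (∀ τ : k →+* ℝ, τ D < 0 ↔ τ a < 0) →
      (∀ x : E, x * x ≠ algebraMap k E (D : k)) → w.re = 0 → w * w = (D : k) • 1 → p.re = 0 →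
      p * p = algebraMap k L (D : k) • 1 →
      ∀ g : OctL E a b c ≃ₗ[E] OctL E a b c, (∀ y, g y = (algebraMap k E (s : k))⁻¹ •
        zFI ρ α q ((1 / 2 : k) • (u • 1 + w)) ((1 / 2 : L) • (algebraMap k L u • 1 + p))
          (s ^ 2) y) → g ∈ RsI ρ σ ι α a b c q)
    {x0 : Qt a b} {x : Qt (up L a) (q * up L b)} {s : kˣ} (h0 : nrd x0 = s)
    (h1 : nrd x = algebraMap k L (s : k)) {g : OctL E a b c ≃ₗ[E] OctL E a b c}
    (hg : ∀ y : OctL E a b c, g y =
      (algebraMap k E (s : k))⁻¹ • zFI ρ α q x0 x (s ^ 2) y) : g ∈ RsI ρ σ ι α a b c q := by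
  -- products of long and short elements
  have hLS : ∀ (g0 : Qt a b) (g1 : Qt (up L a) (q * up L b)), nrd g0 = 1 → nrd g1 = 1 →
      ∃ h ∈ RsI ρ σ ι α a b c q, ∀ y, h y = zFun ρ (psiL α q g1) (qup E g0) 1 y := by
    intro g0 g1 hg0 hg1
    obtain ⟨y0, hy0⟩ := exists_SL1 hg0
    obtain ⟨y1, hy1⟩ := exists_SL1 hg1
    obtain ⟨l, hl, hl'⟩ := exists_longI H y0
    obtain ⟨m, hm, hm'⟩ := exists_shortI H y1
    have hlR : l ∈ RsI ρ σ ι α a b c q := autI_mem H hl (by
      rw [hl']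
      ext1
      · rfl
      · change _ * (0 : Qt (up E a) (up E b)) = 0
        rw [mul_zero])
    refine ⟨l * m, (RsI ρ σ ι α a b c q).mul_mem hlR (hshort y1 m hm'), fun y => ?_⟩
    rw [LinearEquiv.mul_apply, hl', hm', hy0, hy1]
    ext1
    · rfl
    · change _ * (_ * _) = (1 : E) • (_ * _ * _)
      rw [one_smul, mul_assoc]
  by_cases hs1 : s = 1
  · subst hs1
    rw [Units.val_one] at h0 h1
    rw [map_one] at h1
    obtain ⟨h, hh, hh'⟩ := hLS x0 x h0 h1
    have e1 : g = h := by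
      apply LinearEquiv.ext
      intro y
      rw [hg, hh', Mix.zFI_eq x0 (s := 1) (by rw [h1, Units.val_one, map_one]), Units.val_one,
        map_one, inv_one, one_smul]
    rw [e1]
    exact hh
  · have hpos : ∀ τ : k →+* ℝ, τ a < 0 → 0 < τ s := by
      intro τ hτ
      have hs0 : τ (s : k) ≠ 0 := (map_ne_zero τ).2 s.ne_zero
      by_cases hb' : 0 < τ b
      · obtain ⟨w, hw, hqw⟩ := H.exists_neg hτ hb'
        have hwk : ∀ t : k, w (algebraMap k L t) = τ t := fun t => by rw [← hw]; rfl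
        rw [← hwk, ← h1]
        refine lt_of_le_of_ne ?_ (fun h0' => hs0 ?_)
        · have e1 : ((up L a : Lˣ) : L) = algebraMap k L (a : k) := rfl
          have e2 : ((q * up L b : Lˣ) : L) = (q : L) * algebraMap k L (b : k) := rfl
          simp only [nrd, e1, e2, map_sub, map_add, map_mul, map_pow, hwk]
          have hqb : w (q : L) * τ b < 0 := mul_neg_of_neg_of_pos hqw hb'
          nlinarith [sq_nonneg (w x.re), mul_nonneg (neg_nonneg.2 hτ.le) (sq_nonneg (w x.imI)),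
            mul_nonneg (neg_nonneg.2 hqb.le) (sq_nonneg (w x.imJ)),
            mul_nonneg (mul_nonneg (neg_nonneg.2 hτ.le) (neg_nonneg.2 hqb.le))
              (sq_nonneg (w x.imK))]
        · rw [← hwk, ← h1, ← h0']
      have hb' : τ b < 0 := lt_of_le_of_ne (not_lt.1 hb') ((map_ne_zero τ).2 b.ne_zero)
      refine lt_of_le_of_ne ?_ (Ne.symm hs0)
      rw [← h0]
      simp only [nrd, map_sub, map_add, map_mul, map_pow]
      nlinarith [sq_nonneg (τ x0.re), mul_nonneg (neg_nonneg.2 hτ.le) (sq_nonneg (τ x0.imI)),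
        mul_nonneg (neg_nonneg.2 hb'.le) (sq_nonneg (τ x0.imJ)),
        mul_nonneg (mul_nonneg (neg_nonneg.2 hτ.le) (neg_nonneg.2 hb'.le))
          (sq_nonneg (τ x0.imK))]
    obtain ⟨u, D, hD, hgood, hsign, hns⟩ := H.exists_goodu hO hs1 hpos
    obtain ⟨-, ⟨w, hw0, hw⟩, -, ⟨p, hp0, hp⟩, -⟩ := id hgood
    have hNw := nrd_half hw0 hw hD
    have hNp := nrd_half (u := algebraMap k L u) (s := algebraMap k L (s : k)) hp0 hp (by
      rw [hD, map_sub, map_mul, map_pow, map_ofNat])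
    set x0' : Qt a b := (1 / 2 : k) • (u • 1 + w) with hx0'
    set x' : Qt (up L a) (q * up L b) := (1 / 2 : L) • (algebraMap k L u • 1 + p) with hx'
    have hsk : (s : k) ≠ 0 := s.ne_zero
    have hsL : algebraMap k L (s : k) ≠ 0 := (map_ne_zero _).2 hsk
    have f0 : x0' * ((s : k)⁻¹ • (star x0' * x0)) = x0 := by
      rw [mul_smul_comm, ← mul_assoc, q_mul_star, hNw, smul_mul_assoc, one_mul, smul_smul,
        inv_mul_cancel₀ hsk, one_smul]
    have f1 : x' * ((algebraMap k L (s : k))⁻¹ • (star x' * x)) = x := by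
      rw [mul_smul_comm, ← mul_assoc, q_mul_star, hNp, smul_mul_assoc, one_mul, smul_smul,
        inv_mul_cancel₀ hsL, one_smul]
    have n0 : nrd ((s : k)⁻¹ • (star x0' * x0)) = 1 := by
      have := congrArg nrd f0
      rw [nrd_mul, hNw, h0] at this
      exact mul_left_cancel₀ hsk (by rw [this, mul_one])
    have n1 : nrd ((algebraMap k L (s : k))⁻¹ • (star x' * x)) = 1 := by
      have := congrArg nrd f1
      rw [nrd_mul, hNp, h1] at this
      exact mul_left_cancel₀ hsL (by rw [this, mul_one])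
    obtain ⟨h, hh, hh'⟩ := hLS _ _ n0 n1
    have key : ∀ y, g (h⁻¹ y) = (algebraMap k E (s : k))⁻¹ • zFI ρ α q x0' x' (s ^ 2) y := by
      intro y
      rw [hg, Mix.zFI_eq x0 h1, Mix.zFI_eq x0' hNp]
      congr 1
      have e1 : y = h (h⁻¹ y) := by
        rw [← LinearEquiv.mul_apply, mul_inv_cancel]; rfl
      conv_rhs => rw [e1, hh', zFun_mul, ← H.psiL_mul, ← qup_mul, f0, f1, one_mul]
    have h5 : g * h⁻¹ ∈ RsI ρ σ ι α a b c q :=
      hmid s u D w p hD hgood hsign hns hw0 hw hp0 hp _ key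
    have e2 : g = g * h⁻¹ * h := by group
    rw [e2]
    exact (RsI ρ σ ι α a b c q).mul_mem h5 hh

end mix

end Vale.Agent.P011.D4Y
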