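import Vale.Agent.P011.D4X.H63.MixA

/-!
Block D4Y: quadratic polynomials `X² - u X + s` with good discriminants which are not squares in
the biquadratic extension.
-/

open NumberField IsDedekindDomain Topology Filter

namespace Vale.Agent.P011.D4Y

open Vale.Agent.P011.Arith Vale.Agent.P011.D4 Vale.Agent.P011.MPQ Vale.Agent.P011.D4X

section loc

variable {F : Type} [Field F] [NumberField F]

/-- Global discriminants with prescribed local behaviour. -/
theorem exists_gdiscI {n : ℕ} (s a : Fˣ) (t : Fin (n + 1) → Fˣ) (ht : ∀ i, ¬ IsSquare (t i : F))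
    (hs1 : s ≠ 1) (hs : ∀ τ : F →+* ℝ, τ a < 0 → 0 < τ s) {S : Set (HeightOneSpectrum (𝓞 F))}
    (hS : S.Finite) : ∃ (u : F) (D : Fˣ), (D : F) = u ^ 2 - 4 * s ∧
      (∀ v ∈ S, D ∉ LS (v.valuation F)) ∧ (∀ τ : F →+* ℝ, τ D < 0 ↔ τ a < 0) ∧
      ∀ i, ∀ r : F, (D : F) ≠ t i * r ^ 2 := by
  classical
  choose v1 hv1S hv1 using fun i => exists_nonsplit (t i) (ht i) S hS
  -- the local data
  have key : ∀ p : Pl F, ∃ (u : F) (D : Fˣ), (D : F) = u ^ 2 - 4 * s ∧
      (∀ v, p = Sum.inl v → (v ∈ Set.range v1 → D ∈ LS (v.valuation F)) ∧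
        (v ∉ Set.range v1 → D ∉ LS (v.valuation F))) ∧
      ∀ τ : F →+* ℝ, p = Sum.inr τ → (τ D < 0 ↔ τ a < 0) := by
    intro p
    rcases p with v | τ
    · by_cases hv : v ∈ Set.range v1
      · have h1 : (1 : F) - s ≠ 0 := by
          intro h
          apply hs1
          apply Units.ext
          rw [Units.val_one]
          exact (sub_eq_zero.1 h).symm
        refine ⟨1 + s, (Units.mk0 _ h1) ^ 2, ?_, ?_, ?_⟩
        · rw [Units.val_pow_eq_pow_val, Units.val_mk0]
          ring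
        · intro v' hv'
          refine ⟨fun _ => Sq_le_LS _ ⟨_, rfl⟩, fun h => absurd ?_ h⟩
          rw [← Sum.inl.inj hv']
          exact hv
        · intro τ h
          exact absurd h (by simp)
      · obtain ⟨u, D, h1, h2⟩ := exists_disc v s
        refine ⟨u, D, h1, ?_, ?_⟩
        · intro v' hv'
          rw [← Sum.inl.inj hv']
          exact ⟨fun h => absurd h hv, fun _ => h2⟩
        · intro τ h
          exact absurd h (by simp)
    · have hτs : τ (s : F) ≠ 0 := (map_ne_zero τ).mpr s.ne_zero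
      by_cases hτ : τ a < 0
      · refine ⟨0, Units.mk0 (-(4 * (s : F))) (neg_ne_zero.2 (mul_ne_zero (by norm_num)
          s.ne_zero)), ?_, ?_, ?_⟩
        · rw [Units.val_mk0]; ring
        · intro v h
          exact absurd h (by simp)
        · intro τ' h
          rw [← Sum.inr.inj h, Units.val_mk0, map_neg, map_mul, map_ofNat]
          have := hs τ hτ
          exact ⟨fun _ => hτ, fun _ => by linarith⟩
      · have h1 : 0 < τ (4 * (1 + s + s ^ 2) : F) := by
          rw [map_mul, map_ofNat, map_add, map_add, map_one, map_pow]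
          nlinarith [sq_nonneg (τ (s : F) + 1 / 2)]
        have h2 : (4 * (1 + s + s ^ 2) : F) ≠ 0 := by
          intro h
          rw [h, map_zero] at h1
          exact lt_irrefl _ h1
        refine ⟨2 + 2 * s, Units.mk0 _ h2, ?_, ?_, ?_⟩
        · rw [Units.val_mk0]; ring
        · intro v h
          exact absurd h (by simp)
        · intro τ' h
          rw [← Sum.inr.inj h, Units.val_mk0]
          exact ⟨fun h => absurd h1 (not_lt.2 h.le), fun h => absurd h hτ⟩
  choose u0 D0 hD0 hfin hreal using key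
  -- closeness
  choose δ hδ hδ' using fun p : Pl F => LSp_of_near p (D0 p)
  have hpos : ∀ p : Pl F, 0 < min (δ p) (plAbv p (D0 p : F)) := fun p =>
    lt_min (hδ p) ((plAbv p).pos (D0 p).ne_zero)
  choose η hη hη' using fun p : Pl F => exists_delta (ι := Unit) (plAbv p)
    (fun X : Unit → F => (X ()) ^ 2 - 4 * s)
    (by
      let _ := topA (plAbv p)
      have := topA_ring (plAbv p)
      fun_prop) (fun _ => u0 p) (hpos p)
  have hUf : (S ∪ Set.range v1).Finite := hS.union (Set.finite_range v1)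
  obtain ⟨u, hu⟩ := approx (SP (S ∪ Set.range v1)) (SP_finite hUf) u0 η hη
  have hnear : ∀ p ∈ SP (S ∪ Set.range v1), plAbv p (u ^ 2 - 4 * s - D0 p) <
      min (δ p) (plAbv p (D0 p : F)) := by
    intro p hp
    have h1 := hη' p (fun _ => u) (fun _ => hu p hp)
    change plAbv p (u ^ 2 - 4 * s - (u0 p ^ 2 - 4 * s)) < _ at h1
    rw [← hD0 p] at h1
    exact h1
  have hne : u ^ 2 - 4 * (s : F) ≠ 0 := by
    intro h
    have h1 := hnear _ (inl_mem_SP.mpr (Or.inr ⟨0, rfl⟩) : (Sum.inl (v1 0) : Pl F) ∈ _)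
    rw [h, zero_sub, AbsoluteValue.map_neg] at h1
    exact absurd (lt_of_lt_of_le h1 (min_le_right _ _)) (lt_irrefl _)
  obtain ⟨D, hD⟩ : ∃ D : Fˣ, (D : F) = u ^ 2 - 4 * s := ⟨Units.mk0 _ hne, rfl⟩
  have hcl : ∀ p ∈ SP (S ∪ Set.range v1), D * D0 p ∈ LSp p := by
    intro p hp
    apply hδ' p
    rw [hD]
    exact lt_of_lt_of_le (hnear p hp) (min_le_left _ _)
  refine ⟨u, D, hD, ?_, ?_, ?_⟩
  · intro v hv h
    have h1 : D * D0 (Sum.inl v) ∈ LS (v.valuation F) := hcl _ (inl_mem_SP.mpr (Or.inl hv))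
    have h2 := (Subgroup.mul_mem_cancel_left _ h).1 h1
    refine (hfin _ v rfl).2 ?_ h2
    rintro ⟨i, rfl⟩
    exact hv1S i hv
  · intro τ
    have h1 : 0 < τ ((D * D0 (Sum.inr τ) : Fˣ) : F) := hcl _ inr_mem_SP
    rw [Units.val_mul, map_mul] at h1
    rw [← hreal _ τ rfl]
    rcases mul_pos_iff.1 h1 with ⟨h2, h3⟩ | ⟨h2, h3⟩
    · exact ⟨fun h => absurd h2 (not_lt.2 h.le), fun h => absurd h3 (not_lt.2 h.le)⟩
    · exact ⟨fun _ => h3, fun _ => h2⟩
  · intro i r hr
    have h1 : D * D0 (Sum.inl (v1 i)) ∈ LS ((v1 i).valuation F) :=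
      hcl _ (inl_mem_SP.mpr (Or.inr ⟨i, rfl⟩))
    have h2 : D ∈ LS ((v1 i).valuation F) :=
      (Subgroup.mul_mem_cancel_right _ ((hfin _ (v1 i) rfl).1 ⟨i, rfl⟩)).1 h1
    have hr0 : r ≠ 0 := by
      rintro rfl
      apply D.ne_zero
      rw [hr]; ring
    have h3 : D = t i * (Units.mk0 r hr0) ^ 2 := by
      apply Units.ext
      rw [hr, Units.val_mul, Units.val_pow_eq_pow_val, Units.val_mk0]
    rw [h3] at h2
    exact hv1 i ((Subgroup.mul_mem_cancel_right _ (Sq_le_LS _ ⟨_, rfl⟩)).1 h2)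

end loc

section good

variable {k L : Type} [Field k] [NumberField k] [Field L] [NumberField L] [Algebra k L]

omit [NumberField k] in
/-- The square roots in division quaternion algebras. -/
theorem not_sq_of_aniso {a b : kˣ} (hb : Aniso a b) {D : k} (hD0 : D ≠ 0) {w : Qt a b}
    (hw0 : w.re = 0) (hw : w * w = D • 1) (r : k) : D ≠ r ^ 2 := by
  intro h7
  have h8 : nrd (w + r • 1 : Qt a b) = 0 := by
    have h9 : nrd w = -D := by
      have h1 := congrArg QuaternionAlgebra.re hw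
      simp only [QuaternionAlgebra.re_mul, QuaternionAlgebra.re_smul, QuaternionAlgebra.re_one,
        hw0, smul_eq_mul, mul_one] at h1
      simp only [nrd, hw0]
      linear_combination -h1
    have h10 : nrd (w + r • 1 : Qt a b) = r ^ 2 + nrd w := by
      simp only [nrd, QuaternionAlgebra.re_add, QuaternionAlgebra.imI_add,
        QuaternionAlgebra.imJ_add, QuaternionAlgebra.imK_add, QuaternionAlgebra.re_smul,
        QuaternionAlgebra.imI_smul, QuaternionAlgebra.imJ_smul, QuaternionAlgebra.imK_smul,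
        QuaternionAlgebra.re_one, QuaternionAlgebra.imI_one, QuaternionAlgebra.imJ_one,
        QuaternionAlgebra.imK_one, hw0, smul_eq_mul]
      ring
    rw [h10, h9, h7]
    ring
  have h9 := hb _ h8
  have h10 := congrArg QuaternionAlgebra.re h9
  simp only [QuaternionAlgebra.re_add, QuaternionAlgebra.re_smul, QuaternionAlgebra.re_one,
    QuaternionAlgebra.re_zero, hw0, smul_eq_mul, zero_add, mul_one] at h10
  apply hD0
  rw [h7, h10]
  ring

/-- A quadratic polynomial over `k` with constant term `s` whose discriminant is good. -/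
theorem exists_gooduI {n : ℕ} {a b : kˣ} {q : Lˣ} (t : Fin (n + 1) → kˣ)
    (ht : ∀ i, ¬ IsSquare (t i : k))
    (hodd : ∀ (v : HeightOneSpectrum (𝓞 k)) (w : HeightOneSpectrum (𝓞 L)),
      w.asIdeal.comap (algebraMap (𝓞 k) (𝓞 L)) = v.asIdeal →
      Ram (up L a) q w ∨ Ram (up L a) (q * up L b) w →
      ∀ x : kˣ, up L x ∈ LS (w.valuation L) → x ∈ LS (v.valuation k))
    {s : kˣ} (hs1 : s ≠ 1) (hs : ∀ τ : k →+* ℝ, τ a < 0 → 0 < τ s) :
    ∃ (u : k) (D : kˣ), (D : k) = u ^ 2 - 4 * s ∧ GoodD a b q (D : k) ∧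
      (∀ τ : k →+* ℝ, τ D < 0 ↔ τ a < 0) ∧ ∀ i, ∀ r : k, (D : k) ≠ t i * r ^ 2 := by
  choose below hbelow using fun w : HeightOneSpectrum (𝓞 L) => Sch.exists_below (F := k) w
  obtain ⟨R, hR⟩ : ∃ R : Set (HeightOneSpectrum (𝓞 L)), R = {w | Ram (up L a) q w} ∪
    {w | Ram (up L a) (q * up L b) w} := ⟨_, rfl⟩
  have hRf : R.Finite := by
    rw [hR]
    exact (ram_finite _ _).union (ram_finite _ _)
  obtain ⟨S, hS⟩ : ∃ S : Set (HeightOneSpectrum (𝓞 k)), S = {v | Ram a b v} ∪
    below '' R := ⟨_, rfl⟩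
  have hSf : S.Finite := by
    rw [hS]
    exact (ram_finite _ _).union (hRf.image _)
  obtain ⟨u, D, h1, h2, h4, h5⟩ := exists_gdiscI s a t ht hs1 hs hSf
  have h6 : ∀ w ∈ R, up L D ∉ LS (w.valuation L) := fun w hw h =>
    h2 _ (by rw [hS]; exact Or.inr ⟨w, hw, rfl⟩) (hodd _ w (hbelow w)
      (by rw [hR] at hw; exact hw) D h)
  refine ⟨u, D, h1, goodD_of (fun v hv => h2 v (by rw [hS]; exact Or.inl hv))
    (fun w hw => h6 w (by rw [hR]; exact Or.inl hw))
    (fun w hw => h6 w (by rw [hR]; exact Or.inr hw)) (fun τ h => (h4 τ).mpr h)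
    (fun τ h => (h4 τ).mp h), h4, h5⟩

end good

section fix

variable {k E : Type} [Field k] [Field E] [Algebra k E] [NeZero (2 : E)]

/-- The squares of `E` in `k`. -/
theorem not_sqI {ρ σ ι : E ≃ₐ[k] E} (hρ : ∀ x, ρ (ρ (ρ x)) = x)
    (hfix : ∀ x, ρ x = x → σ x = x → ι x = x → ∃ t : k, algebraMap k E t = x)
    {α δ : E} {a d : kˣ} (hα : α * α = algebraMap k E a) (hρα : ρ α = α) (hσα : σ α = -α)
    (hια : ι α = α) (hδ : δ * δ = algebraMap k E d) (hρδ : ρ δ = δ) (hσδ : σ δ = δ)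
    (hιδ : ι δ = -δ) {D : k} (hD : ∀ r : k, D ≠ r ^ 2) (hDa : ∀ r : k, D ≠ a * r ^ 2)
    (hDd : ∀ r : k, D ≠ d * r ^ 2) (hDad : ∀ r : k, D ≠ a * d * r ^ 2) (x : E) :
    x * x ≠ algebraMap k E D := by
  intro hx
  have h2 : (2 : E) ≠ 0 := NeZero.ne 2
  have hD0 : D ≠ 0 := fun h => hD 0 (by rw [h]; ring)
  have hx0 : x ≠ 0 := by
    rintro rfl
    rw [mul_zero] at hx
    exact hD0 ((map_eq_zero (algebraMap k E)).1 hx.symm)
  have ha0 : (a : k) ≠ 0 := a.ne_zero
  have hd0 : (d : k) ≠ 0 := d.ne_zero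
  have hpm : ∀ τ : E ≃ₐ[k] E, τ x = x ∨ τ x = -x := by
    intro τ
    have h3 := congrArg τ hx
    rw [map_mul, τ.commutes] at h3
    have h1 : (τ x - x) * (τ x + x) = 0 := by linear_combination h3 - hx
    rcases mul_eq_zero.1 h1 with h | h
    · exact Or.inl (sub_eq_zero.1 h)
    · exact Or.inr (by linear_combination h)
  have hfx : ρ x = x := by
    rcases hpm ρ with h | h
    · exact h
    · exfalso
      have h5 := hρ x
      rw [h, map_neg, h, neg_neg, h] at h5
      have h6 : (2 : E) * x = 0 := by linear_combination -h5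
      exact hx0 ((mul_eq_zero.1 h6).resolve_left h2)
  have hinj : ∀ {r s : k}, algebraMap k E r = algebraMap k E s → r = s := fun h =>
    (algebraMap k E).injective h
  rcases hpm σ with h3 | h3 <;> rcases hpm ι with h4 | h4
  · obtain ⟨r, hr⟩ := hfix x hfx h3 h4
    exact hD r (hinj (by rw [← hx, ← hr, map_pow]; ring))
  · obtain ⟨r, hr⟩ := hfix (x * δ) (by rw [map_mul, hfx, hρδ]) (by rw [map_mul, h3, hσδ])
      (by rw [map_mul, h4, hιδ]; ring)
    refine hDd (r / d) ?_
    have h5 : r ^ 2 = D * d := hinj (by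
      rw [map_pow, hr, map_mul, ← hx, ← hδ]; ring)
    rw [div_pow, h5]
    field_simp
  · obtain ⟨r, hr⟩ := hfix (x * α) (by rw [map_mul, hfx, hρα]) (by rw [map_mul, h3, hσα]; ring)
      (by rw [map_mul, h4, hια])
    refine hDa (r / a) ?_
    have h5 : r ^ 2 = D * a := hinj (by
      rw [map_pow, hr, map_mul, ← hx, ← hα]; ring)
    rw [div_pow, h5]
    field_simp
  · obtain ⟨r, hr⟩ := hfix (x * (α * δ)) (by rw [map_mul, map_mul, hfx, hρα, hρδ])
      (by rw [map_mul, map_mul, h3, hσα, hσδ]; ring)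
      (by rw [map_mul, map_mul, h4, hια, hιδ]; ring)
    refine hDad (r / (a * d)) ?_
    have h5 : r ^ 2 = D * (a * d) := hinj (by
      rw [map_pow, hr, map_mul, map_mul, ← hx, ← hα, ← hδ]; ring)
    rw [div_pow, h5]
    field_simp

/-- The nonsquares of `k` which become squares in `E`. -/
theorem nonsq_of {z : E} {e : kˣ} (hz : z * z = algebraMap k E e)
    {τ : E ≃ₐ[k] E} (hτ : τ z = -z) : ¬ IsSquare (e : k) := by
  rintro ⟨r, hr⟩
  have h2 : (2 : E) ≠ 0 := NeZero.ne 2
  have hz0 : z ≠ 0 := by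
    rintro rfl
    rw [mul_zero] at hz
    exact e.ne_zero ((map_eq_zero (algebraMap k E)).1 hz.symm)
  have h1 : (z - algebraMap k E r) * (z + algebraMap k E r) = 0 := by
    rw [hr, map_mul] at hz
    linear_combination hz
  have h3 : ∃ s : k, z = algebraMap k E s := by
    rcases mul_eq_zero.1 h1 with h | h
    · exact ⟨r, sub_eq_zero.1 h⟩
    · exact ⟨-r, by rw [map_neg]; linear_combination h⟩
  obtain ⟨s, rfl⟩ := h3
  rw [τ.commutes] at hτ
  have h6 : (2 : E) * algebraMap k E s = 0 := by linear_combination hτ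
  exact hz0 ((mul_eq_zero.1 h6).resolve_left h2)

end fix

end Vale.Agent.P011.D4Y
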