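import Vale.Agent.P011.D4Y.Defs
import Vale.Agent.P011.D4Y.H64.Odd
import Vale.Agent.P011.D4.TG6
import Vale.Agent.P011.D4Y.H63.Disc
import Vale.Agent.P011.D4Y.H63.Nei

/-!
Block D4Y: the primes of even local degree are not ramified in `(a, q b)`; the square roots of the
discriminant; good discriminants.
-/

open NumberField IsDedekindDomain

namespace Vale.Agent.P011.D4Y

open Vale.Agent.P011.Arith Vale.Agent.P011.MPQ Vale.Agent.P011.D4 Vale.Agent.P011.D4.Oct
  Vale.Agent.P011.E6 Vale.Agent.P011.D4X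

section ram

variable {k L : Type} [Field k] [NumberField k] [Field L] [NumberField L] [Algebra k L]

/-- The norm groups are mapped to the norm groups. -/
theorem NF_LS_map {v : HeightOneSpectrum (𝓞 k)} {w : HeightOneSpectrum (𝓞 L)}
    (hw : w.asIdeal.comap (algebraMap (𝓞 k) (𝓞 L)) = v.asIdeal) {a x : kˣ}
    (hx : x ∈ NF a ⊔ LS (v.valuation k)) : up L x ∈ NF (up L a) ⊔ LS (w.valuation L) := by
  obtain ⟨y, ⟨r, s, hy⟩, z, hz, rfl⟩ := Subgroup.mem_sup.1 hx
  rw [show up L (y * z) = up L y * up L z from map_mul _ _ _]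
  refine mul_mem (Subgroup.mem_sup_left ⟨algebraMap k L r, algebraMap k L s, ?_⟩)
    (Subgroup.mem_sup_right (LS_map hw hz))
  change algebraMap k L (y : k) = _ - algebraMap k L (a : k) * _
  rw [hy, map_sub, map_mul, map_pow, map_pow]

/-- The algebras of `k` are split at the primes of even local degree. -/
theorem split_of_even {v : HeightOneSpectrum (𝓞 k)} {w : HeightOneSpectrum (𝓞 L)}
    (hw : w.asIdeal.comap (algebraMap (𝓞 k) (𝓞 L)) = v.asIdeal) {x : kˣ}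
    (hx : x ∉ LS (v.valuation k)) (hxw : up L x ∈ LS (w.valuation L)) (a b : kˣ) :
    up L b ∈ NF (up L a) ⊔ LS (w.valuation L) := by
  by_cases ha : a ∈ LS (v.valuation k)
  · rw [NF_sup_of_mem' _ (LS_map hw ha)]
    exact Subgroup.mem_top _
  · obtain ⟨p, hp, r, hr, rfl⟩ := Subgroup.mem_sup.1 (TG.sup_eq_top' ha hx b)
    rw [show up L (p * r) = up L p * up L r from map_mul _ _ _]
    refine mul_mem (NF_LS_map hw hp) ?_
    have h1 := NF_LS_map hw hr
    rw [show up L (a * x) = up L a * up L x from map_mul _ _ _] at h1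
    have h2 := mem_symm _ _ h1
    exact mem_symm _ _ ((Subgroup.mul_mem_cancel_right _ (Subgroup.mem_sup_right hxw)).1 h2)

/-- The primes where `(a, q b)` is ramified have odd local degree. -/
theorem ram_odd {a : kˣ} {q : Lˣ} (h : HOdd a q) {v : HeightOneSpectrum (𝓞 k)}
    {w : HeightOneSpectrum (𝓞 L)}
    (hw : w.asIdeal.comap (algebraMap (𝓞 k) (𝓞 L)) = v.asIdeal) {b : kˣ}
    (hR : Ram (up L a) (q * up L b) w) : OddP w v := by
  intro x hxw
  by_contra hx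
  have h1 : ¬ Ram (up L a) q w := fun h' => hx (h v w hw h' x hxw)
  have h2 : q ∈ NF (up L a) ⊔ LS (w.valuation L) := by
    by_contra h3
    exact h1 h3
  exact hR (mul_mem h2 (split_of_even hw hx hxw a b))

/-- The primes where `(a, q)` or `(a, q b)` is ramified have odd local degree. -/
theorem ram_odd' {a b : kˣ} {q : Lˣ} (h : HOdd a q) (v : HeightOneSpectrum (𝓞 k))
    (w : HeightOneSpectrum (𝓞 L))
    (hw : w.asIdeal.comap (algebraMap (𝓞 k) (𝓞 L)) = v.asIdeal)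
    (hR : Ram (up L a) q w ∨ Ram (up L a) (q * up L b) w) (x : kˣ)
    (hx : up L x ∈ LS (w.valuation L)) : x ∈ LS (v.valuation k) := by
  rcases hR with hR | hR
  · exact h v w hw hR x hx
  · exact ram_odd h hw hR x hx

end ram

section model

variable {k L E : Type} [Field k] [Field L] [Field E] [Algebra k L] [Algebra k E] [Algebra L E]
  [IsScalarTower k L E] [NeZero (2 : E)] {ρ σ ι : E ≃ₐ[k] E} {α : E} {a b c : kˣ} {q : Lˣ}
  (H : HyI ρ σ ι α a b c q)

include H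

omit [NeZero (2 : E)] [IsScalarTower k L E] in
theorem HyI.al0 : α ≠ 0 := Nei.al_ne H.α2

omit [IsScalarTower k L E] in
/-- The elements fixed by `ρ` and `ι`. -/
theorem HyI.fixKa (x : E) (h1 : ρ x = x) (h2 : ι x = x) :
    ∃ p0 p1 : k, x = algebraMap k E p0 + algebraMap k E p1 * α := by
  have h0 := H.al0
  have h2' : (2 : E) ≠ 0 := NeZero.ne 2
  have e1 : ρ (σ x) = σ x := by rw [← H.comm, h1]
  have e2 : ι (σ x) = σ x := by rw [← H.σι, h2]
  obtain ⟨p0, hp0⟩ := H.fixk ((x + σ x) / 2) (by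
    rw [map_div₀, map_add, h1, e1, map_ofNat]) (by
    rw [map_div₀, map_add, H.σ2, map_ofNat, add_comm]) (by
    rw [map_div₀, map_add, h2, e2, map_ofNat])
  obtain ⟨p1, hp1⟩ := H.fixk ((x - σ x) / (2 * α)) (by
    rw [map_div₀, map_sub, h1, e1, map_mul, map_ofNat, H.ρα]) (by
    rw [map_div₀, map_sub, H.σ2, map_mul, map_ofNat, H.σα]
    field_simp
    ring) (by
    rw [map_div₀, map_sub, h2, e2, map_mul, map_ofNat, H.ια])
  refine ⟨p0, p1, ?_⟩
  rw [hp0, hp1]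
  field_simp
  ring

omit [NeZero (2 : E)] [IsScalarTower k L E] in
/-- The square root of the discriminant. -/
theorem HyI.exists_delta : ∃ (δ : E) (d : kˣ), δ * δ = algebraMap k E d ∧ ρ δ = δ ∧ σ δ = δ ∧
    ι δ = -δ := by
  obtain ⟨t, ht⟩ := H.ρL
  obtain ⟨y, hy⟩ : ∃ y : E, y = algebraMap L E t := ⟨_, rfl⟩
  rw [← hy] at ht
  have s1 : σ y = y := by rw [hy]; exact H.σL t
  have s2 : σ (ρ y) = ρ y := by rw [H.comm, s1]
  have s3 : σ (ρ (ρ y)) = ρ (ρ y) := by rw [H.comm, s2]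
  have i1 : ι y = ρ (ρ y) := by rw [hy]; exact H.ιL t
  have i2 : ι (ρ y) = ρ y := by rw [H.ιρ, i1, H.ρ3]
  have i3 : ι (ρ (ρ y)) = y := by rw [H.ιρ, i2, H.ρ3]
  obtain ⟨δ, hδ⟩ : ∃ δ : E, δ = (y - ρ y) * (ρ y - ρ (ρ y)) * (ρ (ρ y) - y) := ⟨_, rfl⟩
  have d1 : ρ δ = δ := by
    rw [hδ, map_mul, map_mul, map_sub, map_sub, map_sub, H.ρ3]
    ring
  have d2 : σ δ = δ := by
    rw [hδ, map_mul, map_mul, map_sub, map_sub, map_sub, s1, s2, s3]
  have d3 : ι δ = -δ := by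
    rw [hδ, map_mul, map_mul, map_sub, map_sub, map_sub, i1, i2, i3]
    ring
  have d0 : δ ≠ 0 := by
    rw [hδ]
    refine mul_ne_zero (mul_ne_zero (sub_ne_zero.2 (Ne.symm ht)) (sub_ne_zero.2 ?_))
      (sub_ne_zero.2 ?_)
    · intro h
      exact ht (ρ.injective h.symm)
    · intro h
      have h1 := congrArg ρ h
      rw [H.ρ3] at h1
      exact ht h1.symm
  obtain ⟨d, hd⟩ := H.fixk (δ * δ) (by rw [map_mul, d1]) (by rw [map_mul, d2])
    (by rw [map_mul, d3]; ring)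
  have hd0 : d ≠ 0 := by
    rintro rfl
    rw [map_zero] at hd
    exact mul_ne_zero d0 d0 hd.symm
  exact ⟨δ, Units.mk0 d hd0, hd.symm, d1, d2, d3⟩

omit [IsScalarTower k L E] in
/-- Three classes which have to be avoided. -/
theorem HyI.exists_avoid : ∃ t : Fin 3 → kˣ, (∀ i, ¬ IsSquare (t i : k)) ∧
    ∀ D : k, (∀ r : k, D ≠ r ^ 2) → (∀ i, ∀ r : k, D ≠ t i * r ^ 2) →
      ∀ x : E, x * x ≠ algebraMap k E D := by
  obtain ⟨δ, d, hδ, d1, d2, d3⟩ := H.exists_delta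
  refine ⟨![a, d, a * d], ?_, ?_⟩
  · intro i
    fin_cases i
    · exact nonsq_of (z := α) H.α2 (τ := σ) H.σα
    · exact nonsq_of (z := δ) hδ (τ := ι) d3
    · refine nonsq_of (z := α * δ) ?_ (τ := σ) ?_
      · change _ = algebraMap k E ((a : k) * (d : k))
        rw [map_mul, ← H.α2, ← hδ]
        ring
      · rw [map_mul, H.σα, d2]
        ring
  · intro D h1 h2 x
    exact not_sqI H.ρ3 H.fixk H.α2 H.ρα H.σα H.ια hδ d1 d2 d3 h1 (h2 0) (h2 1) (h2 2) x

/-- D1a' : the singular vectors, stable by `I`, whose plane is the standard plane. -/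
theorem sing_ep {v : OctL E a b c} (hv : Pt ρ v) (hI : ∃ μ : E, Im ι v = μ • v) {t : E}
    (ht : t ≠ 0) (h : tri ρ v (Jm ρ σ α q v) = t • ep α) :
    ∃ (s : E) (w : Oct a b c), s ≠ 0 ∧ w ≠ 0 ∧ dot w 1 = 0 ∧ dot w gi = 0 ∧
      v = s • (ep α * oup E w) := by
  obtain ⟨μ, hμ⟩ := hI
  exact sing_epI H.ρ3 H.ρα H.σα H.α2 H.fixKa hv ht h (ν := μ) hμ

/-- D1a : the neighbours, stable by `I`, of a standard singular vector. -/
theorem nb_ep {v : OctL E a b c} (hv : Pt ρ v) (hI : ∃ μ : E, Im ι v = μ • v)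
    (h : Nb ρ (ep α * oup E (gl : Oct a b c)) v) :
    ∃ (s t : E) (f : Oct a b c), dot f 1 = 0 ∧ dot f gi = 0 ∧ dot f gl = 0 ∧
      dot f (gi * gl) = 0 ∧ v = s • (ep α * oup E gl) + t • ((1 - ep α) * oup E f) := by
  obtain ⟨μ, hμ⟩ := hI
  exact nb_epI H.ρα H.α2 H.fixKa hv (ν := μ) hμ h

end model

section good

variable {k L E : Type} [Field k] [NumberField k] [Field L] [NumberField L] [Field E]
  [Algebra k L] [Algebra k E] [Algebra L E]
  [IsScalarTower k L E] [NeZero (2 : E)] {ρ σ ι : E ≃ₐ[k] E} {α : E} {a b c : kˣ} {q : Lˣ}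
  (H : HyI ρ σ ι α a b c q)

include H

omit [IsScalarTower k L E] in
/-- A quadratic polynomial over `k` with constant term `s` whose discriminant is good and is not
a square in `E`. -/
theorem HyI.exists_goodu (hO : HOdd a q) {s : kˣ} (hs1 : s ≠ 1)
    (hs : ∀ τ : k →+* ℝ, τ a < 0 → 0 < τ s) :
    ∃ (u : k) (D : kˣ), (D : k) = u ^ 2 - 4 * s ∧ GoodD a b q (D : k) ∧
      (∀ τ : k →+* ℝ, τ D < 0 ↔ τ a < 0) ∧ ∀ x : E, x * x ≠ algebraMap k E (D : k) := by
  obtain ⟨t, ht, hav⟩ := H.exists_avoid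
  obtain ⟨u, D, h1, h2, h4, h5⟩ := exists_gooduI (a := a) (b := b) (q := q) t ht
    (fun v w hw hR x hx => ram_odd' hO v w hw hR x hx) hs1 hs
  obtain ⟨hD0, ⟨w0, hw0, hw0'⟩, -⟩ := id h2
  exact ⟨u, D, h1, h2, h4, hav D (not_sq_of_aniso H.hdiv.aniso hD0 hw0 hw0') h5⟩

end good

end Vale.Agent.P011.D4Y
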