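import Vale.Agent.P011.D4Y.H553.KCb

/-!
Block D4Y: the change of the quadratic field, with the elements `lam` and `v`.
-/

open Vale.Agent.P011.MPQ Vale.Agent.P011.D4 Vale.Agent.P011.D4.Oct Vale.Agent.P011.E6
  Vale.Agent.P011.D4.H24

namespace Vale.Agent.P011.D4Y.H63

open Vale.Agent.P011.D4X Vale.Agent.P011.D4X.H67 Vale.Agent.P011.D4Y.H553

section kca

variable {k O : Type} [Field k] [Field O] [Algebra k O] {ρ σ τ ι : O ≃ₐ[k] O} {a b : kˣ}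

/-- The quaternion `X` of the change of field, with the automorphism `ι`. -/
theorem kca' (h3 : ∀ x, ρ (ρ (ρ x)) = x) (hσ : ∀ x, σ (σ x) = x) (hτ : ∀ x, τ (τ x) = x)
    (hσρ : ∀ x, σ (ρ x) = ρ (σ x)) (hτρ : ∀ x, τ (ρ x) = ρ (τ x)) (hστ : ∀ x, σ (τ x) = τ (σ x))
    (hιρ : ∀ x, ι (ρ x) = ρ (ρ (ι x))) (hισ : ∀ x, ι (σ x) = σ (ι x))
    (hιτ : ∀ x, ι (τ x) = τ (ι x))
    (h2 : (2 : O) ≠ 0) {α : O} (hα0 : α ≠ 0) (hσα : σ α = -α) (hρα : ρ α = α) (hτα : τ α = α)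
    (hια : ι α = α) (hα2 : α * α = algebraMap k O a)
    {β : O} (hβ0 : β ≠ 0) (hσβ : σ β = β) (hτβ : τ β = -β) (hρβ : ρ β = β) (hιβ : ι β = β)
    {q : O} (hq : N3 ρ q = 1) (hσq : σ q = q) (hτq : τ q = q) (hιq : ι q = ρ (ρ q))
    {i1 j1 : Qt a b} (hi0 : i1.re = 0) (hi : (algebraMap k O (nrd i1)) = -(β * β))
    (hj : nrd j1 ≠ 0) (hij : j1 * i1 = -(i1 * j1))
    {p : Qt (up O a) (up O b)} (hp0 : p.re = 0) (hp : nrd p = -(β * β)) (hτp : qmap τ p = p)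
    (hσp : mq a b α q * qmap σ p = p * mq a b α q) (hιp : qmap ι p = qmap ρ (qmap ρ p)) :
    ∃ (X : Qt (up O a) (up O b)) (lam v s : O), nrd X ≠ 0 ∧ v ≠ 0 ∧ s ≠ 0 ∧ lam ≠ 0 ∧
      p * X = X * qup O i1 ∧ mq a b α q * qmap σ X = lam • X ∧
      qmap τ X = X * el (qup O i1) β (τ v) v⁻¹ ∧
      N3 ρ (v * τ v) = 1 ∧ σ (v * τ v) = v * τ v ∧
      ρ s = s ∧ σ s = N3 ρ lam * s ∧ τ s * N3 ρ v = s ∧ lam * σ lam = q ∧
      qmap ι X = qmap ρ (qmap ρ X) ∧ ι lam = ρ (ρ lam) ∧ ι v = ρ (ρ v) ∧ ι s = s ∧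
      τ lam * σ v = lam * v := by
  obtain ⟨I, hI⟩ : ∃ I : Qt (up O a) (up O b), I = qup O i1 := ⟨_, rfl⟩
  rw [← hI]
  have hI0 : I.re = 0 := by
    rw [hI]
    change algebraMap k O i1.re = 0
    rw [hi0, map_zero]
  have hnI : nrd I = -(β * β) := by
    rw [hI, ← hi]
    exact nrd_qup i1
  have hσI : qmap σ I = I := by rw [hI, qmap_qup]
  have hτI : qmap τ I = I := by rw [hI, qmap_qup]
  have hρI : qmap ρ I = I := by rw [hI, qmap_qup]
  have hιI : qmap ι I = I := by rw [hI, qmap_qup]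
  have hcισ : ∀ y : Qt (up O a) (up O b), qmap ι (qmap σ y) = qmap σ (qmap ι y) := fun y => by
    ext
    · exact hισ _
    · exact hισ _
    · exact hισ _
    · exact hισ _
  have hcσρ : ∀ y : Qt (up O a) (up O b), qmap σ (qmap ρ y) = qmap ρ (qmap σ y) := fun y => by
    ext
    · exact hσρ _
    · exact hσρ _
    · exact hσρ _
    · exact hσρ _
  have hsI : star I = -I := star_of_re hI0
  have hsp : star p = -p := star_of_re hp0
  have hII : I * I = (β * β) • (1 : Qt (up O a) (up O b)) := by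
    have h := mul_star_self' I
    rw [hsI, mul_neg, hnI, neg_smul, neg_inj] at h
    exact h
  have hpp : p * p = (β * β) • (1 : Qt (up O a) (up O b)) := by
    have h := mul_star_self' p
    rw [hsp, mul_neg, hp, neg_smul, neg_inj] at h
    exact h
  have hββ : β * β ≠ 0 := mul_ne_zero hβ0 hβ0
  obtain ⟨m, hm⟩ : ∃ m : Qt (up O a) (up O b), m = mq a b α q := ⟨_, rfl⟩
  rw [← hm] at hσp ⊢
  have hq0 : q ≠ 0 := by
    rintro rfl
    simp [N3] at hq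
  have hτm : qmap τ m = m := by
    rw [hm]
    ext
    · change τ ((q + 1) / 2) = (q + 1) / 2
      rw [map_div₀, map_add, hτq, map_one, map_ofNat]
    · change τ ((q - 1) / (2 * α)) = (q - 1) / (2 * α)
      rw [map_div₀, map_sub, hτq, map_one, map_mul, map_ofNat, hτα]
    · exact map_zero τ
    · exact map_zero τ
  have hιm : qmap ι m = qmap ρ (qmap ρ m) := by
    rw [hm]
    ext
    · change ι ((q + 1) / 2) = ρ (ρ ((q + 1) / 2))
      simp only [map_div₀, map_add, hιq, map_one, map_ofNat]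
    · change ι ((q - 1) / (2 * α)) = ρ (ρ ((q - 1) / (2 * α)))
      simp only [map_div₀, map_sub, hιq, map_one, map_mul, map_ofNat, hια, hρα]
    · change ι 0 = ρ (ρ 0)
      simp only [map_zero]
    · change ι 0 = ρ (ρ 0)
      simp only [map_zero]
  have hmm : m * qmap σ m = q • (1 : Qt (up O a) (up O b)) := by
    have e1 : (up O a : O) = α * α := by rw [hα2]; rfl
    rw [hm]
    ext
    · simp only [mq, qmap, QuaternionAlgebra.re_mul, QuaternionAlgebra.re_smul,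
        QuaternionAlgebra.re_one, smul_eq_mul, map_div₀, map_add, map_sub, map_mul, map_one,
        map_zero, map_ofNat, hσq, hσα, e1]
      field_simp
      ring
    · simp only [mq, qmap, QuaternionAlgebra.imI_mul, QuaternionAlgebra.imI_smul,
        QuaternionAlgebra.imI_one, smul_eq_mul, map_div₀, map_add, map_sub, map_mul, map_one,
        map_zero, map_ofNat, hσq, hσα, e1]
      field_simp
      ring
    · simp only [mq, qmap, QuaternionAlgebra.imJ_mul, QuaternionAlgebra.imJ_smul,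
        QuaternionAlgebra.imJ_one, smul_eq_mul, map_zero]
      ring
    · simp only [mq, qmap, QuaternionAlgebra.imK_mul, QuaternionAlgebra.imK_smul,
        QuaternionAlgebra.imK_one, smul_eq_mul, map_zero]
      ring
  -- the quaternion `X₀`
  obtain ⟨Y, hY, hX0⟩ : ∃ Y : Qt (up O a) (up O b), (qmap σ Y = Y ∧ qmap τ Y = Y ∧
      qmap ρ Y = Y ∧ qmap ι Y = Y) ∧ nrd (p * Y + Y * I) ≠ 0 := by
    have hpar : nrd (p + I) + nrd (p - I) = 2 * nrd p + 2 * nrd I := by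
      simp only [nrd, QuaternionAlgebra.re_add, QuaternionAlgebra.imI_add,
        QuaternionAlgebra.imJ_add, QuaternionAlgebra.imK_add, QuaternionAlgebra.re_sub,
        QuaternionAlgebra.imI_sub, QuaternionAlgebra.imJ_sub, QuaternionAlgebra.imK_sub]
      ring
    by_cases h : nrd (p + I) = 0
    · refine ⟨qup O j1, ⟨by rw [qmap_qup], by rw [qmap_qup], by rw [qmap_qup],
        by rw [qmap_qup]⟩, ?_⟩
      have e1 : (qup O j1 : Qt (up O a) (up O b)) * I = -(I * qup O j1) := by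
        rw [hI, ← qup_mul, hij, ← qup_mul]
        exact qup_neg _
      rw [e1, ← sub_eq_add_neg, ← sub_mul, nrd_mul]
      apply mul_ne_zero
      · rw [h, hp, hnI, zero_add] at hpar
        rw [hpar]
        intro h5
        apply mul_ne_zero (mul_ne_zero h2 h2) hββ
        linear_combination -h5
      · rw [nrd_qup]
        exact (map_ne_zero _).mpr hj
    · refine ⟨1, ⟨by rw [qmap_one], by rw [qmap_one], by rw [qmap_one], by rw [qmap_one]⟩, ?_⟩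
      rwa [mul_one, one_mul]
  obtain ⟨hY1, hY2, hY3, hY4⟩ := hY
  obtain ⟨X0, hX0d⟩ : ∃ X0, X0 = p * Y + Y * I := ⟨_, rfl⟩
  rw [← hX0d] at hX0
  have hpX0 : p * X0 = X0 * I := by
    rw [hX0d, mul_add, add_mul, ← mul_assoc, hpp, mul_assoc Y, hII, smul_mul_assoc, one_mul,
      mul_smul_comm, mul_one, mul_assoc, add_comm]
  have hτX0 : qmap τ X0 = X0 := by
    rw [hX0d, qmap_add, qmap_mul, qmap_mul, hτp, hτI, hY2]
  have hιX0 : qmap ι X0 = qmap ρ (qmap ρ X0) := by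
    rw [hX0d]
    simp only [qmap_add, qmap_mul, hιp, hιI, hρI, hY3, hY4]
  obtain ⟨Z, hZ⟩ : ∃ Z, Z = m * qmap σ X0 := ⟨_, rfl⟩
  have hιZ : qmap ι Z = qmap ρ (qmap ρ Z) := by
    rw [hZ, qmap_mul, hιm, hcισ, hιX0, hcσρ, hcσρ, qmap_mul, qmap_mul]
  have hZ' : Z = p * m * Y + m * Y * I := by
    rw [hZ, hX0d, qmap_add, qmap_mul, qmap_mul, hσI, hY1, mul_add, ← mul_assoc, hσp, ← mul_assoc]
  have hpZ : p * Z = Z * I := by
    have e1 : p * (p * m * Y) = (β * β) • (m * Y) := by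
      rw [← mul_assoc, ← mul_assoc, hpp, smul_mul_assoc, smul_mul_assoc, one_mul]
    have e2 : m * Y * I * I = (β * β) • (m * Y) := by
      rw [mul_assoc, hII, mul_smul_comm, mul_one]
    have e3 : p * (m * Y * I) = p * m * Y * I := by
      rw [← mul_assoc, ← mul_assoc]
    rw [hZ', mul_add, add_mul, e1, e2, e3, add_comm]
  obtain ⟨l, hl⟩ : ∃ l, l = (nrd X0)⁻¹ • (star X0 * Z) := ⟨_, rfl⟩
  have hXl : X0 * l = Z := by
    rw [hl, mul_smul_comm, ← mul_assoc, mul_star_self', smul_mul_assoc, one_mul, smul_smul,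
      inv_mul_cancel₀ hX0, one_smul]
  have hlI : l * I = I * l := by
    apply cancel_left hX0
    rw [← mul_assoc, hXl, ← mul_assoc, ← hpX0, mul_assoc, hXl, hpZ]
  have hιl : qmap ι l = qmap ρ (qmap ρ l) := by
    rw [hl]
    simp only [qmap_smul, qmap_mul, qmap_star, hιX0, hιZ, map_inv₀, iota_nrd hιX0]
  have hτl : qmap τ l = l := by
    apply cancel_left hX0
    have e1 : qmap τ (X0 * l) = qmap τ Z := by rw [hXl]
    rw [qmap_mul, hτX0] at e1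
    rw [e1, hXl, hZ, qmap_mul, hτm]
    have e2 : qmap τ (qmap σ X0) = qmap σ (qmap τ X0) := by
      ext
      · exact (hστ _).symm
      · exact (hστ _).symm
      · exact (hστ _).symm
      · exact (hστ _).symm
    rw [e2, hτX0]
  have hll : l * qmap σ l = q • (1 : Qt (up O a) (up O b)) := by
    apply cancel_left hX0
    have e1 : m * qmap σ Z = q • X0 := by
      have e2 : qmap σ (qmap σ X0) = X0 := by
        ext
        · exact hσ _
        · exact hσ _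
        · exact hσ _
        · exact hσ _
      rw [hZ, qmap_mul, e2, ← mul_assoc, hmm, smul_mul_assoc, one_mul]
    have e3 : m * qmap σ Z = X0 * (l * qmap σ l) := by
      rw [← hXl, qmap_mul, ← mul_assoc, ← hZ, ← hXl, mul_assoc]
    rw [← e3, e1, mul_smul_comm, mul_one]
  obtain ⟨l0, hl0⟩ : ∃ l0, l0 = l.re := ⟨_, rfl⟩
  obtain ⟨l1, hl1⟩ : ∃ l1, l1 = (l * I).re / (β * β) := ⟨_, rfl⟩
  have hτl0 : τ l0 = l0 := by
    rw [hl0]
    exact congrArg QuaternionAlgebra.re hτl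
  have hτl1 : τ l1 = l1 := by
    have e1 : qmap τ (l * I) = l * I := by rw [qmap_mul, hτl, hτI]
    have e2 : τ (l * I).re = (l * I).re := congrArg QuaternionAlgebra.re e1
    rw [hl1, map_div₀, e2, map_mul, hτβ, neg_mul_neg]
  have hιl0 : ι l0 = ρ (ρ l0) := by
    rw [hl0]
    exact congrArg QuaternionAlgebra.re hιl
  have hιl1 : ι l1 = ρ (ρ l1) := by
    have e1 : qmap ι (l * I) = qmap ρ (qmap ρ (l * I)) := by
      simp only [qmap_mul, hιl, hιI, hρI]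
    have e2 : ι (l * I).re = ρ (ρ (l * I).re) := congrArg QuaternionAlgebra.re e1
    rw [hl1]
    simp only [map_div₀, e2, map_mul, hιβ, hρβ]
  have hle := comm_el h2 hβ0 hI0 hnI hlI
  rw [← hl0, ← hl1] at hle
  obtain ⟨lam, hlam⟩ : ∃ lam, lam = l0 + β * l1 := ⟨_, rfl⟩
  have hτlam : τ lam = l0 - β * l1 := by
    rw [hlam, map_add, map_mul, hτl0, hτl1, hτβ, neg_mul, sub_eq_add_neg]
  rw [← hlam, ← hτlam] at hle
  have hlamq : lam * σ lam = q := by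
    rw [hle, qmap_el hσI hσβ, el_mul h2 hβ0 hII] at hll
    have e1 : q • (1 : Qt (up O a) (up O b)) = el I β q q := by
      rw [← el_one h2 (I := I) (α := β), el_smul, mul_one]
    rw [e1] at hll
    exact el_left h2 hβ0 hI0 hII hll
  have hιlam : ι lam = ρ (ρ lam) := by
    rw [hlam]
    simp only [map_add, map_mul, hιl0, hιl1, hιβ, hρβ]
  have hlam0 : lam ≠ 0 := by
    rintro rfl
    rw [zero_mul] at hlamq
    exact hq0 hlamq.symm
  obtain ⟨v, s, hv0, hs0, h5, h6, h7, h8, h9, h10, h11, h12⟩ :=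
    exists_vs h3 hσ hτ hσρ hτρ hστ h2 hα0 hσα hρα hιρ hισ hιτ hια hq hτq hlamq hιlam
  refine ⟨X0 * el I β 1 v, lam, v, s, ?_, hv0, hs0, hlam0, ?_, ?_, ?_, h6, h7, h8, h9, h10, hlamq,
    ?_, hιlam, h11, h12, h5⟩
  · rw [nrd_mul, nrd_el h2 hβ0 hI0 hnI, one_mul]
    exact mul_ne_zero hX0 hv0
  · rw [← mul_assoc, hpX0, mul_assoc, mul_assoc]
    congr 1
    have e1 : I = el I β β (-β) := (el_I h2 hβ0).symm
    have e2 : el I β β (-β) * el I β 1 v = el I β 1 v * el I β β (-β) := by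
      rw [el_mul h2 hβ0 hII, el_mul h2 hβ0 hII, mul_comm β, mul_comm (-β)]
    rwa [← e1] at e2
  · rw [qmap_mul, qmap_el hσI hσβ, ← mul_assoc, ← hZ, ← hXl, hle, mul_assoc,
      el_mul h2 hβ0 hII, map_one, mul_one, h5, ← mul_smul_comm, el_smul, mul_one]
  · rw [qmap_mul, hτX0, qmap_el' hτI hτβ, map_one, mul_assoc, el_mul h2 hβ0 hII, one_mul,
      mul_inv_cancel₀ hv0]
  · rw [qmap_mul, hιX0, qmap_el hιI hιβ, qmap_mul, qmap_mul, qmap_el hρI hρβ, qmap_el hρI hρβ,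
      map_one, map_one, map_one, h11]

end kca


section uf

variable {k O : Type} [Field k] [Field O] [Algebra k O] {ρ σ τ ι : O ≃ₐ[k] O}
  {a b c a1 b1 c1 : kˣ} {I J X : Qt (up O a) (up O b)} {t : O}

/-- **The change of the quadratic field**, with the automorphism `ι`. -/
theorem kcb_iota' [NeZero (2 : O)] (h3 : ∀ x, ρ (ρ (ρ x)) = x) (hσ : ∀ x, σ (σ x) = x)
    (hτ : ∀ x, τ (τ x) = x) (hσρ : ∀ x, σ (ρ x) = ρ (σ x)) (hτρ : ∀ x, τ (ρ x) = ρ (τ x))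
    (hστ : ∀ x, σ (τ x) = τ (σ x))
    (hιρ : ∀ x, ι (ρ x) = ρ (ρ (ι x))) (hισ : ∀ x, ι (σ x) = σ (ι x))
    (hιτ : ∀ x, ι (τ x) = τ (ι x))
    (hfix : ∀ x, ρ x = x → σ x = x → τ x = x → ι x = x → ∃ t : k, algebraMap k O t = x)
    {α : O} (hσα : σ α = -α) (hρα : ρ α = α) (hτα : τ α = α) (hια : ι α = α)
    (hα2 : α * α = algebraMap k O a)
    {β : O} (hσβ : σ β = β) (hτβ : τ β = -β) (hρβ : ρ β = β) (hιβ : ι β = β)
    (hβ2 : β * β = algebraMap k O a1)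
    {q : O} (hq : N3 ρ q = 1) (hσq : σ q = q) (hτq : τ q = q) (hιq : ι q = ρ (ρ q))
    {i1 j1 : Qt a b} (hi0 : i1.re = 0) (hj0 : j1.re = 0) (hi : nrd i1 = -a1) (hj : nrd j1 = -b1)
    (hij : j1 * i1 = -(i1 * j1))
    {p : Qt (up O a) (up O b)} (hp0 : p.re = 0) (hp : nrd p = -(β * β)) (hτp : qmap τ p = p)
    (hσp : mq a b α q * qmap σ p = p * mq a b α q) (hιp : qmap ι p = qmap ρ (qmap ρ p))
    (c : kˣ) :
    ∃ (c1 : kˣ) (q1 : O) (u : OctL O a1 b1 c1 ≃ₗ[O] OctL O a b c) (e f s t : O),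
      e ≠ 0 ∧ f ≠ 0 ∧ s ≠ 0 ∧ t ≠ 0 ∧ N3 ρ q1 = 1 ∧ σ q1 = q1 ∧ τ q1 = q1 ∧ ι q1 = ρ (ρ q1) ∧
      (∀ x y, tri ρ (u x) (u y) = e • u (tri ρ x y)) ∧
      (∀ x y, bil (u x) (u y) = f * bil x y) ∧
      (∀ x, Jq σ α q (ρ q) (u x) = s • u (omap σ x)) ∧
      (∀ x, omap τ (u x) = t • u (Jq τ β q1 (ρ q1) x)) ∧
      (∀ x, u (t0 O a1 b1 c1 x) = t0 O a b c (u x)) ∧
      (∀ (r r' r0 r0' g : O) x,
        u (zFun ρ (r • 1 + r' • ⟨0, 1, 0, 0⟩) (r0 • 1 + r0' • ⟨0, 1, 0, 0⟩) g x) =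
          zFun ρ (r • 1 + r' • p) (r0 • 1 + r0' • qup O i1) g (u x)) ∧
      (∀ x, omap ι (star (u x)) = u (omap ι (star x))) ∧
      ∃ lam v : O, lam ≠ 0 ∧ v ≠ 0 ∧ lam * σ lam = q ∧ τ lam * σ v = lam * v ∧
        q1 = v * τ v ∧ ι lam = ρ (ρ lam) ∧ ι v = ρ (ρ v) := by
  have h2 : (2 : O) ≠ 0 := NeZero.ne 2
  have hα0 : α ≠ 0 := by
    intro h0
    rw [h0, mul_zero] at hα2
    exact (map_ne_zero (algebraMap k O)).2 a.ne_zero hα2.symm
  have hβ0 : β ≠ 0 := by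
    intro h0
    rw [h0, mul_zero] at hβ2
    exact (map_ne_zero (algebraMap k O)).2 a1.ne_zero hβ2.symm
  have hi' : algebraMap k O (nrd i1) = -(β * β) := by
    rw [hi, map_neg, hβ2]
  have hj' : nrd j1 ≠ 0 := by
    rw [hj]
    exact neg_ne_zero.2 b1.ne_zero
  obtain ⟨X, lam, v, s, hX0, hv, hs, hlam, hpX, hσX, hτX, hNv, hσv, hρs, hσs, hτs, hlq, hιX,
      hιlam, hιv, hιs, hrel⟩ :=
    kca' (ι := ι) h3 hσ hτ hσρ hτρ hστ hιρ hισ hιτ h2 hα0 hσα hρα hτα hια hα2 hβ0 hσβ hτβ hρβ hιβ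
      hq hσq hτq hιq hi0 hi' hj' hij hp0 hp hτp hσp hιp
  have hII : i1 * i1 = (a1 : k) • (1 : Qt a b) := by
    have h := mul_star_self' i1
    rw [star_of_re hi0, mul_neg, hi, neg_smul, neg_inj] at h
    exact h
  have hJJ : j1 * j1 = (b1 : k) • (1 : Qt a b) := by
    have h := mul_star_self' j1
    rw [star_of_re hj0, mul_neg, hj, neg_smul, neg_inj] at h
    exact h
  have hP : HP (up O a1) (up O b1) (qup O i1) (qup O j1) := by
    refine ⟨?_, ?_, ?_, ?_, ?_⟩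
    · change algebraMap k O i1.re = 0
      rw [hi0, map_zero]
    · change algebraMap k O j1.re = 0
      rw [hj0, map_zero]
    · rw [← qup_mul, hII, qup_smul, qup_one]
      rfl
    · rw [← qup_mul, hJJ, qup_smul, qup_one]
      rfl
    · rw [← qup_mul, hij, ← qup_mul]
      exact qup_neg _
  have hIm : ∀ g : O ≃ₐ[k] O, qmap g (qup O i1) = qup O i1 := fun g => by rw [qmap_qup]
  have hJm : ∀ g : O ≃ₐ[k] O, qmap g (qup O j1) = qup O j1 := fun g => by rw [qmap_qup]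
  have hH : HJ a ρ σ α q (ρ q) (ρ (ρ q)) :=
    { al := hα2
      ra := hρα
      sa := hσα
      r0 := rfl
      r1 := rfl
      r2 := h3 q
      s0 := hσq
      N := hq
      rs := fun x => (hσρ x).symm
      r3 := h3
      s2 := hσ }
  have hH1 : HJ a1 ρ τ β (v * τ v) (ρ (v * τ v)) (ρ (ρ (v * τ v))) :=
    { al := hβ2
      ra := hρβ
      sa := hτβ
      r0 := rfl
      r1 := rfl
      r2 := h3 _
      s0 := by rw [map_mul, hτ, mul_comm]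
      N := hNv
      rs := fun x => (hτρ x).symm
      r3 := h3
      s2 := hτ }
  have hq0 : q ≠ 0 := hH.q_ne
  have hnI : nrd (qup O i1 : Qt (up O a) (up O b)) = -(β * β) := by
    rw [← hi']
    exact nrd_qup i1
  -- the norm of `X`
  obtain ⟨ξ, hξ⟩ : ∃ ξ, ξ = nrd X := ⟨_, rfl⟩
  have hξ0 : ξ ≠ 0 := by rwa [hξ]
  have hσξ : q * σ ξ = lam ^ 2 * ξ := by
    have h := congrArg nrd hσX
    rwa [nrd_mul_q, nrd_mq hα2, nrd_qmap, nrd_smul_q, ← hξ] at h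
  have hτξ : v * τ ξ = ξ * τ v := by
    have h := congrArg nrd hτX
    rw [nrd_mul_q, nrd_el h2 hβ0 hP.I0 hnI, nrd_qmap, ← hξ] at h
    rw [h]
    field_simp
  have hρξ0 : ρ ξ ≠ 0 := (map_ne_zero ρ).2 hξ0
  have hρρξ0 : ρ (ρ ξ) ≠ 0 := (map_ne_zero ρ).2 hρξ0
  have hρv0 : ρ v ≠ 0 := (map_ne_zero ρ).2 hv
  have hρρv0 : ρ (ρ v) ≠ 0 := (map_ne_zero ρ).2 hρv0
  have hτv0 : τ v ≠ 0 := (map_ne_zero τ).2 hv
  have hρl0 : ρ lam ≠ 0 := (map_ne_zero ρ).2 hlam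
  have hρρl0 : ρ (ρ lam) ≠ 0 := (map_ne_zero ρ).2 hρl0
  have hρσξ : ρ (ρ q) * ρ (ρ (σ ξ)) = ρ (ρ lam) ^ 2 * ρ (ρ ξ) := by
    rw [← map_mul, ← map_mul, hσξ, map_mul, map_mul, map_pow, map_pow]
  have hρτξ : ρ (ρ v) * ρ (ρ (τ ξ)) = ρ (ρ ξ) * ρ (ρ (τ v)) := by
    rw [← map_mul, ← map_mul, hτξ, map_mul, map_mul]
  have hιξ : ι ξ = ρ (ρ ξ) := by
    rw [hξ]
    exact iota_nrd hιX
  obtain ⟨t, ht⟩ : ∃ t, t = ξ * ρ (ρ ξ) * s⁻¹ := ⟨_, rfl⟩
  have hιt : ι t = t := by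
    rw [ht, map_mul, map_mul, map_inv₀, hιs, hιρ, hιρ, hιξ, h3, h3]
    ring
  have ht0 : t ≠ 0 := by
    rw [ht]
    exact mul_ne_zero (mul_ne_zero hξ0 hρρξ0) (inv_ne_zero hs)
  have hρt : ρ t = ρ ξ * ξ * s⁻¹ := by
    rw [ht, map_mul, map_mul, map_inv₀, h3, hρs]
  have hρρt : ρ (ρ t) = ρ (ρ ξ) * ρ ξ * s⁻¹ := by
    rw [hρt, map_mul, map_mul, map_inv₀, hρs]
  -- the element `c₁`
  obtain ⟨ζ, hζ⟩ : ∃ ζ : k, algebraMap k O ζ = N3 ρ ξ * (s ^ 2)⁻¹ := by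
    apply hfix
    · rw [map_mul, rho_N3 h3, map_inv₀, map_pow, hρs]
    · have e1 : N3 ρ (σ ξ) = N3 ρ lam ^ 2 * N3 ρ ξ := by
        have h := congrArg (N3 ρ) hσξ
        rwa [N3_mul, hq, one_mul, N3_mul, sq, N3_mul, ← sq] at h
      have hNl : N3 ρ lam ≠ 0 := N3_ne hlam
      rw [map_mul, map_N3 hσρ, e1, map_inv₀, map_pow, hσs]
      field_simp
    · have e1 : N3 ρ v * N3 ρ (τ ξ) = N3 ρ ξ * N3 ρ (τ v) := by
        rw [← N3_mul, hτξ, N3_mul]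
      have hNv0 : N3 ρ v ≠ 0 := N3_ne hv
      rw [N3_mul] at hNv
      have e2 : N3 ρ (τ ξ) * N3 ρ v ^ 2 = N3 ρ ξ := by
        linear_combination N3 ρ v * e1 + N3 ρ ξ * hNv
      have hτs0 : τ s ≠ 0 := (map_ne_zero τ).2 hs
      rw [map_mul, map_N3 hτρ, map_inv₀, map_pow, ← e2]
      nth_rewrite 2 [← hτs]
      field_simp
    · rw [map_mul, iota_N3 h3 hιρ hιξ, map_inv₀, map_pow, hιs]
  have hζ0 : ζ ≠ 0 := by
    rintro rfl
    rw [map_zero] at hζ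
    exact mul_ne_zero (N3_ne hξ0) (inv_ne_zero (pow_ne_zero _ hs)) hζ.symm
  have hc1 : ((up O (Units.mk0 ζ hζ0 * c) : Oˣ) : O) =
      N3 ρ ξ * (s ^ 2)⁻¹ * ((up O c : Oˣ) : O) := by
    rw [← hζ]
    change algebraMap k O (ζ * c) = _
    rw [map_mul]
    rfl
  have hA : ((up O c : Oˣ) : O) * (ρ (ρ t) * ρ t) =
      ((up O (Units.mk0 ζ hζ0 * c) : Oˣ) : O) * ρ (nrd X) := by
    rw [hc1, hρρt, hρt, ← hξ, N3]
    field_simp
  have hB : ρ (ρ t) * nrd X = ρ (nrd X) * t := by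
    rw [hρρt, ← hξ, ht]
    ring
  have hC : ρ t * ρ (ρ (nrd X)) = ρ (nrd X) * t := by
    rw [hρt, ← hξ, ht]
    ring
  have hN : ((up O c : Oˣ) : O) * (t ^ 2 * ρ (nrd X)) =
      ((up O (Units.mk0 ζ hζ0 * c) : Oˣ) : O) * (nrd X * ρ (ρ (nrd X))) := by
    rw [hc1, ht, ← hξ, N3]
    field_simp
  refine ⟨Units.mk0 ζ hζ0 * c, v * τ v, uE ρ c _ hP hX0 ht0, ρ (nrd X), nrd X * ρ (ρ (nrd X)),
    (ρ (ρ q))⁻¹ * (lam * ρ (ρ lam)), v⁻¹ * ρ (ρ v⁻¹) * ρ (ρ (v * τ v)), ?_, ?_, ?_, ?_, hNv, hσv,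
    hH1.s0, by rw [map_mul, hιτ, hιv, hτρ, hτρ, map_mul, map_mul], ?_, ?_, ?_, ?_, ?_, ?_,
    fun x => uF_iota h3 hιρ hP (hIm ι) (hJm ι) hιX hιt x,
    ⟨lam, v, hlam, hv, hlq, hrel, rfl, hιlam, hιv⟩⟩
  · rw [← hξ]
    exact hρξ0
  · rw [← hξ]
    exact mul_ne_zero hξ0 hρρξ0
  · exact mul_ne_zero (inv_ne_zero hH.q2_ne) (mul_ne_zero hlam hρρl0)
  · exact mul_ne_zero (mul_ne_zero (inv_ne_zero hv)
      ((map_ne_zero ρ).2 ((map_ne_zero ρ).2 (inv_ne_zero hv)))) hH1.q2_ne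
  · intro x y
    exact uF_tri h3 hP (hIm ρ) (hJm ρ) hA hB hC x y
  · intro x y
    exact bil_uF hP hN x y
  · intro x
    have hT : ρ (ρ q) * (σ t * q * ρ lam) = lam * ρ (ρ lam) * t := by
      have hσt : σ t = σ ξ * ρ (ρ (σ ξ)) * (N3 ρ lam * s)⁻¹ := by
        rw [ht, map_mul, map_mul, map_inv₀, hσs, hσρ, hσρ]
      rw [hσt, ht, N3]
      have e : ρ (ρ q) * (σ ξ * ρ (ρ (σ ξ)) * (lam * ρ lam * ρ (ρ lam) * s)⁻¹ * q * ρ lam) =
          (q * σ ξ) * (ρ (ρ q) * ρ (ρ (σ ξ))) * (lam * ρ lam * ρ (ρ lam) * s)⁻¹ * ρ lam := by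
        ring
      rw [e, hσξ, hρσξ]
      field_simp
    have h := uF_Jq (c := c) (c1 := Units.mk0 ζ hζ0 * c) hH (hIm σ) (hJm σ) hσX hT x
    change Jq σ α q (ρ q) (uF ρ c (qup O i1) (qup O j1) X t x) =
      ((ρ (ρ q))⁻¹ * (lam * ρ (ρ lam))) • uF ρ c (qup O i1) (qup O j1) X t (omap σ x)
    rw [mul_smul, ← h, smul_smul, inv_mul_cancel₀ hH.q2_ne, one_smul]
  · intro x
    have hT : τ t * ρ v⁻¹ = v⁻¹ * ρ (ρ v⁻¹) * ρ (ρ (v * τ v)) * t * (v * τ v) := by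
      have hτt : τ t = τ ξ * ρ (ρ (τ ξ)) * (τ s)⁻¹ := by
        rw [ht, map_mul, map_mul, map_inv₀, hτρ, hτρ]
      have hτs0 : τ s ≠ 0 := (map_ne_zero τ).2 hs
      have e1 : τ ξ = ξ * τ v * v⁻¹ := by
        rw [← hτξ]
        field_simp
      have e2 : ρ (ρ (τ ξ)) = ρ (ρ ξ) * ρ (ρ (τ v)) * (ρ (ρ v))⁻¹ := by
        rw [← hρτξ]
        field_simp
      have e3 : s⁻¹ = (τ s)⁻¹ * (N3 ρ v)⁻¹ := by
        rw [← mul_inv, hτs]
      rw [hτt, e2, e1, ht, e3, N3, map_inv₀, map_inv₀, map_mul, map_mul]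
      field_simp
    exact uF_omap hH1 hP (hIm ρ) (hJm ρ) (hIm τ) (hJm τ) hv hτX rfl hT x
  · intro x
    exact uF_t0 x
  · intro r r' r0 r0' g x
    refine uF_zFun hP (hIm ρ) (hJm ρ) ?_ ?_ g x
    · rw [pq_add, pq_smul, pq_smul, pq_one, pq_gi, add_mul, mul_add, smul_mul_assoc,
        smul_mul_assoc, hpX, one_mul, mul_smul_comm, mul_smul_comm, mul_one]
    · rw [pq_add, pq_smul, pq_smul, pq_one, pq_gi]

end uf


end Vale.Agent.P011.D4Y.H63
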