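import Vale.Agent.P011.D4Y.H691.Na
import Vale.Agent.P011.D4X.H63.PartA

/-!
Block D4Y: the parts of the same class in the centralisers of two involutions, from a change of
the quadratic field.
-/

open NumberField Topology

set_option linter.unusedSectionVars false

namespace Vale.Agent.P011.D4Y

open Vale.Agent.P011.MPQ Vale.Agent.P011.D4 Vale.Agent.P011.D4.Oct Vale.Agent.P011.E6
open Vale.Agent.P011.D4X

section std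

variable {k E : Type} [Field k] [Field E] [Algebra k E] [NeZero (2 : E)] {a b c : kˣ}

variable {L : Type} [Field L] [Algebra k L] [Algebra L E] [IsScalarTower k L E]
  {ρ σ ι : E ≃ₐ[k] E} {α : E} {q : Lˣ}

theorem Part.mem_stab0 (h : Trip a b c (gi : Oct a b c) gj gl) {z : ATI ρ σ ι α a b c q}
    (hz : z ∈ stabI ρ σ ι α q h) : z ∈ stab0I ρ σ ι α a b c q := by
  intro x
  have hz' : z.1 * tQ E h = tQ E h * z.1 := hz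
  have h1 := congrArg (fun f : OctL E a b c ≃ₗ[E] OctL E a b c => f x) hz'
  change z.1 (tQ E h x) = tQ E h (z.1 x) at h1
  rwa [D4X.Part.tQ_std, D4X.Part.tQ_std] at h1

end std

section iso

variable {k L E E1 : Type} [Field k] [Field L] [Field E] [Field E1] [Algebra k L] [Algebra k E]
  [Algebra L E] [IsScalarTower k L E] [Algebra k E1] [Algebra L E1] [IsScalarTower k L E1]
  [NeZero (2 : E)] [NeZero (2 : E1)] {ρ σ ι : E ≃ₐ[k] E} {α : E}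
  {a b c : kˣ} {q : Lˣ} {ρ1 σ1 ι1 : E1 ≃ₐ[k] E1} {α1 : E1} {a1 b1 c1 : kˣ} {q1 : Lˣ}

section

variable {φ : ATI ρ σ ι α a b c q ≃* ATI ρ1 σ1 ι1 α1 a1 b1 c1 q1}
  (kp : ∀ (z : ATI ρ σ ι α a b c q) (κ : Lˣ), IsKapI ρ z.1 κ ↔ IsKapI ρ1 (φ z).1 κ)

include kp

theorem Part.kap_iso (z : ATI ρ σ ι α a b c q) : kapI (φ z) = kapI z :=
  kapI_eq ((kp z _).1 (isKapI_kapI z))

theorem Part.kap_iso' (z : ATI ρ1 σ1 ι1 α1 a1 b1 c1 q1) : kapI (φ.symm z) = kapI z := by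
  have h := Part.kap_iso kp (φ.symm z)
  rw [MulEquiv.apply_symm_apply] at h
  exact h.symm

/-- The isomorphism of the groups of rational points. -/
noncomputable def Part.gtIso : GTI ρ1 σ1 ι1 α1 a1 b1 c1 q1 ≃* GTI ρ σ ι α a b c q where
  toFun g := ⟨(φ.symm ⟨g.1, GTI_le_ATI g.2⟩).1, mem_GTI_of_kapI_one (by
    rw [Part.kap_iso' kp, kapI_of_GTI g.2])⟩
  invFun g := ⟨(φ ⟨g.1, GTI_le_ATI g.2⟩).1, mem_GTI_of_kapI_one (by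
    rw [Part.kap_iso kp, kapI_of_GTI g.2])⟩
  left_inv g := by
    apply Subtype.ext
    change (φ (φ.symm ⟨g.1, GTI_le_ATI g.2⟩)).1 = g.1
    rw [MulEquiv.apply_symm_apply]
  right_inv g := by
    apply Subtype.ext
    change (φ.symm (φ ⟨g.1, GTI_le_ATI g.2⟩)).1 = g.1
    rw [MulEquiv.symm_apply_apply]
  map_mul' g h := by
    apply Subtype.ext
    change (φ.symm ⟨g.1 * h.1, GTI_le_ATI (g * h).2⟩).1 =
      (φ.symm ⟨g.1, GTI_le_ATI g.2⟩).1 * (φ.symm ⟨h.1, GTI_le_ATI h.2⟩).1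
    have e1 : (⟨g.1 * h.1, GTI_le_ATI (g * h).2⟩ : ATI ρ1 σ1 ι1 α1 a1 b1 c1 q1) =
      ⟨g.1, GTI_le_ATI g.2⟩ * ⟨h.1, GTI_le_ATI h.2⟩ := rfl
    rw [e1, map_mul]
    rfl

/-- The finite residuals correspond to each other. -/
theorem Part.Rs_iso {z : ATI ρ1 σ1 ι1 α1 a1 b1 c1 q1} (hz : z.1 ∈ RsI ρ1 σ1 ι1 α1 a1 b1 c1 q1) :
    (φ.symm z).1 ∈ RsI ρ σ ι α a b c q := by
  obtain ⟨h1, h2⟩ := mem_RsI.1 hz
  exact mem_RsI.2 ⟨_, fres_map (Part.gtIso kp) h2⟩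

/-- The finite residuals correspond to each other. -/
theorem Part.Rs_iso_iff {z : ATI ρ σ ι α a b c q} :
    z.1 ∈ RsI ρ σ ι α a b c q ↔ (φ z).1 ∈ RsI ρ1 σ1 ι1 α1 a1 b1 c1 q1 := by
  constructor
  · intro hz
    obtain ⟨h1, h2⟩ := mem_RsI.1 hz
    exact mem_RsI.2 ⟨_, fres_map (Part.gtIso kp).symm h2⟩
  · intro hz
    have h := Part.Rs_iso kp hz
    rwa [MulEquiv.symm_apply_apply] at h

end

/-- The elements of the central torus are central modulo `N`. -/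
theorem Part.comm {H : HyI ρ σ ι α a b c q}
    (hN : ∀ {b' c' : kˣ} {j l : Oct a b c} (h : Trip a b' c' gi j l) {z : ATI ρ σ ι α a b c q},
      z ∈ stabI ρ σ ι α q h → kapI z = 1 → IsNI ρ σ ι α a b c q z) {z : ATI ρ σ ι α a b c q}
    (hz : ∀ {b' c' : kˣ} {j l : Oct a b c} (h : Trip a b' c' gi j l), z ∈ stabI ρ σ ι α q h) :
    stabsI ρ σ ι α a b c q ≤ comGrp H.NA z := by
  rw [stabsI, Subgroup.closure_le]
  rintro y ⟨b', c', j, l, h, hy⟩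
  rw [SetLike.mem_coe, mem_comGrp]
  refine hN h (Subgroup.mul_mem _ (Subgroup.mul_mem _ (Subgroup.mul_mem _ (hz h) hy)
    (Subgroup.inv_mem _ (hz h))) (Subgroup.inv_mem _ hy)) ?_
  rw [kapI_mul, kapI_mul, kapI_mul, kapI_inv, kapI_inv, mul_comm (kapI z) (kapI y), mul_assoc (kapI y),
    mul_inv_cancel, mul_one, mul_inv_cancel]

/-- The parts, from a change of the quadratic field. -/
theorem Part.of_iso (H1 : HyI ρ1 σ1 ι1 α1 a1 b1 c1 q1)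
    {φ : ATI ρ σ ι α a b c q ≃* ATI ρ1 σ1 ι1 α1 a1 b1 c1 q1}
    (kp : ∀ (z : ATI ρ σ ι α a b c q) (κ : Lˣ), IsKapI ρ z.1 κ ↔ IsKapI ρ1 (φ z).1 κ)
    (st0 : ∀ z : ATI ρ σ ι α a b c q, z ∈ stab0I ρ σ ι α a b c q ↔ φ z ∈ stab0I ρ1 σ1 ι1 α1 a1 b1 c1 q1)
    (hN : ∀ {b' c' : kˣ} {j l : Oct a1 b1 c1} (h : Trip a1 b' c' gi j l)
      {z : ATI ρ1 σ1 ι1 α1 a1 b1 c1 q1}, z ∈ stabI ρ1 σ1 ι1 α1 q1 h → kapI z = 1 →
      IsNI ρ1 σ1 ι1 α1 a1 b1 c1 q1 z)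
    {b' c' : kˣ} {j l : Oct a b c} (h : Trip a b' c' gi j l)
    {y : ATI ρ1 σ1 ι1 α1 a1 b1 c1 q1} (hy : y ∈ stabsI ρ1 σ1 ι1 α1 a1 b1 c1 q1) {b2 c2 : kˣ}
    {j1 l1 : Oct a1 b1 c1} (h1 : Trip a1 b2 c2 gi j1 l1)
    (hback : ∀ z ∈ stabI ρ1 σ1 ι1 α1 q1 h1, φ.symm (y⁻¹ * z * y) ∈ stabI ρ σ ι α q h)
    {z : ATI ρ1 σ1 ι1 α1 a1 b1 c1 q1} {κ : Lˣ} (hz1 : IsKapI ρ1 z.1 κ)
    (hz3 : ∀ {b' c' : kˣ} {j l : Oct a1 b1 c1} (h : Trip a1 b' c' gi j l),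
      z ∈ stabI ρ1 σ1 ι1 α1 q1 h) :
    ∃ w w' : ATI ρ σ ι α a b c q, w ∈ stab0I ρ σ ι α a b c q ∧ w' ∈ stabI ρ σ ι α q h ∧
      IsKapI ρ w.1 κ ∧ IsKapI ρ w'.1 κ ∧ IsNI ρ σ ι α a b c q (w * w'⁻¹) := by
  have hkz : kapI z = κ := kapI_eq hz1
  have hc := Part.comm (H := H1) hN hz3 (Subgroup.inv_mem _ hy)
  rw [mem_comGrp] at hc
  have hc2 : kapI (z * y⁻¹ * z⁻¹ * y⁻¹⁻¹) = 1 := by
    rw [kapI_mul, kapI_mul, kapI_mul, kapI_inv y⁻¹, kapI_inv, kapI_inv, mul_comm (kapI z),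
      mul_assoc _ (kapI z), mul_inv_cancel, mul_one, mul_inv_cancel]
  have hc3 : (z * y⁻¹ * z⁻¹ * y⁻¹⁻¹).1 ∈ RsI ρ1 σ1 ι1 α1 a1 b1 c1 q1 :=
    mem_of_isNI H1 _ (mem_GTI_of_kapI_one hc2) hc
  refine ⟨φ.symm z, φ.symm (y⁻¹ * z * y), ?_, hback z (hz3 h1), ?_, ?_, ?_⟩
  · rw [st0, MulEquiv.apply_symm_apply]
    exact Part.mem_stab0 trip_std (hz3 trip_std)
  · rw [kp, MulEquiv.apply_symm_apply]
    exact hz1
  · rw [kp, MulEquiv.apply_symm_apply]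
    have e2 : kapI (y⁻¹ * z * y) = κ := by
      rw [kapI_mul, kapI_mul, kapI_inv, hkz, mul_comm, mul_inv_cancel_left]
    rw [← e2]
    exact isKapI_kapI _
  · have e3 : φ.symm z * (φ.symm (y⁻¹ * z * y))⁻¹ = φ.symm (z * y⁻¹ * z⁻¹ * y⁻¹⁻¹) := by
      have e4 : z * (y⁻¹ * z * y)⁻¹ = z * y⁻¹ * z⁻¹ * y⁻¹⁻¹ := by group
      rw [← map_inv, ← map_mul, e4]
    rw [e3]
    exact ⟨1, _, Part.Rs_iso kp hc3, fun x => by rw [Units.val_one, map_one, map_one, one_smul]⟩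

end iso

end Vale.Agent.P011.D4Y
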