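import Vale.Agent.P011.D4X.H63.SingX
import Vale.Agent.P011.D4X.H691.Ch

/-!
Block D4Y: the singular vector in the eigenspace of an involution, close to the standard one and
stable under the semilinear involution.
-/

open Filter Topology

set_option linter.unusedSectionVars false

namespace Vale.Agent.P011.D4Y

open Vale.Agent.P011.MPQ Vale.Agent.P011.D4 Vale.Agent.P011.D4.Oct Vale.Agent.P011.E6
open Vale.Agent.P011.D4X

namespace H63

section e

variable {k E O : Type} [Field k] [Field E] [Field O] [Algebra k E] [Algebra k O] [Algebra E O]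
  [IsScalarTower k E O] {a b c : kˣ}

theorem invo_add' (ι : E ≃ₐ[k] E) (x y : OctL E a b c) :
    invo ι (x + y) = invo ι x + invo ι y := by
  rw [invo, star_add, omap_add]
  rfl

theorem invo_neg' (ι : E ≃ₐ[k] E) (x : OctL E a b c) : invo ι (-x) = -invo ι x := by
  rw [invo, star_neg, omap_neg]
  rfl

theorem invo_sub' (ι : E ≃ₐ[k] E) (x y : OctL E a b c) :
    invo ι (x - y) = invo ι x - invo ι y := by
  rw [sub_eq_add_neg, invo_add', invo_neg', ← sub_eq_add_neg]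

theorem invo_smul' (ι : E ≃ₐ[k] E) (t : E) (x : OctL E a b c) :
    invo ι (t • x) = ι t • invo ι x := by
  rw [invo, star_smul_oct, omap_smul]
  rfl

theorem invo_invo' {ι : E ≃ₐ[k] E} (h : ∀ t, ι (ι t) = t) (x : OctL E a b c) :
    invo ι (invo ι x) = x := by
  apply ext8 <;> simp [invo, omap, h]

theorem invo_omap {ι σ : E ≃ₐ[k] E} (h : ∀ t, ι (σ t) = σ (ι t)) (x : OctL E a b c) :
    omap σ (invo ι x) = invo ι (omap σ x) := by
  apply ext8 <;> simp [invo, omap, h]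

theorem invo_oO {ι : E ≃ₐ[k] E} {ι' : O ≃ₐ[k] O}
    (h : ∀ t, ι' (algebraMap E O t) = algebraMap E O (ι t)) (x : OctL E a b c) :
    invo ι' (oO O x) = oO O (invo ι x) := by
  rw [invo, invo, ← oO_star, omap_oO h]

theorem invo_std {α : E} {ι : E ≃ₐ[k] E} (hα : ι α = α) :
    invo ι (ep α * gl : OctL E a b c) = -(ep α * gl) := by
  have h3 : (ep α * gl : OctL E a b c) = ⟨0, ⟨1 / 2, 1 / (2 * α), 0, 0⟩⟩ := by
    ext1
    · change _ * 0 + (up E c : E) • (star 1 * 0) = 0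
      rw [mul_zero, mul_zero, smul_zero, add_zero]
    · change 1 * _ + 0 * star _ = _
      rw [one_mul, zero_mul, add_zero]
      rfl
  rw [h3]
  ext1
  · change qmap ι (star 0) = -0
    rw [star_zero, qmap_zero, neg_zero]
  · change qmap ι (-_) = -_
    rw [qmap_neg]
    congr 1
    apply QuaternionAlgebra.ext
    · change ι (1 / 2) = 1 / 2
      rw [map_div₀, map_one, map_ofNat]
    · change ι (1 / (2 * α)) = 1 / (2 * α)
      rw [map_div₀, map_one, map_mul, map_ofNat, hα]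
    · exact map_zero _
    · exact map_zero _

end e

section plane

variable {k O : Type} [Field k] [Field O] [Algebra k O] [NeZero (2 : O)] {ι' : O ≃ₐ[k] O}
  {β : O} {a b c b' c' : kˣ} {j l : Oct a b c}

theorem inS_invo {h : Trip a b' c' gi j l} {w : Qt a b'}
    {y : OctL O a b c} (hy : InS β h w y) (hβ : ι' β = β) : InS β h w (invo ι' y) := by
  obtain ⟨x, rfl⟩ := hy
  refine ⟨-qmap ι' x, ?_⟩
  have e1 : invo ι' (tripO O h ⟨0, eW β w * x⟩) = tripO O h (invo ι' ⟨0, eW β w * x⟩) := by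
    rw [invo, invo, tripO_omap, tripO_star]
  rw [e1]
  congr 1
  ext1
  · change qmap ι' (star 0) = 0
    rw [star_zero, qmap_zero]
  · change qmap ι' (-(eW β w * x)) = eW β w * -qmap ι' x
    rw [qmap_neg, qmap_mul, qmap_eW hβ, mul_neg]

end plane

section s3

variable {k E1 O X : Type} [Field k] [Field E1] [Field O] [Algebra k E1] [Algebra k O]
  [Algebra E1 O] [IsScalarTower k E1 O] [NeZero (2 : E1)] [NeZero (2 : O)]
  {ρ1 ι1 : E1 ≃ₐ[k] E1} {ρ' σ' ι' : O ≃ₐ[k] O} {γ : O} {a b c a1 b1 c1 : kˣ}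

/-- **The stable singular vector of an involution close to the standard one**, as a limit. -/
theorem sing_limI {Sk : Set (k →+* ℂ)} (hne : Sk.Nonempty)
    (hext : ∀ w : E1 →+* ℂ, ∃ W : O →+* ℂ, W.comp (algebraMap E1 O) = w)
    (hextk : ∀ w : k →+* ℂ, ∃ W : E1 →+* ℂ, W.comp (algebraMap k E1) = w)
    {α1 : E1} (hα1 : α1 * α1 = algebraMap k E1 a1) (hρα : ρ1 α1 = α1) (hια : ι1 α1 = α1)
    (hρ1 : ∀ t, ρ' (algebraMap E1 O t) = algebraMap E1 O (ρ1 t))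
    (hσ1 : ∀ t, σ' (algebraMap E1 O t) = algebraMap E1 O t)
    (hι1 : ∀ t, ι' (algebraMap E1 O t) = algebraMap E1 O (ι1 t))
    (hfix : ∀ t, σ' t = t → ∃ s : E1, algebraMap E1 O s = t) (σ2 : ∀ t, σ' (σ' t) = t)
    (ι2 : ∀ t, ι' (ι' t) = t) (ισ : ∀ t, ι' (σ' t) = σ' (ι' t))
    {r r' : O} {u : OctL O a1 b1 c1 ≃ₗ[O] OctL O a b c} {e s m : O} (he : e ≠ 0) (hs : s ≠ 0)
    (hu1 : ∀ x y, tri ρ' (u x) (u y) = e • u (tri ρ' x y))
    (hu2 : ∀ x, Jq σ' γ r r' (u x) = s • u (omap σ' x))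
    (hm : m ≠ 0) (hu3 : ∀ x, invo ι' (u x) = m • u (invo ι' x))
    (hut : ∀ x, u (t0 O a1 b1 c1 x) = t0 O a b c (u x)) {w0 : Qt a b}
    {p : Qt (up O a) (up O b)}
    (huz : ∀ (r r' r0 r0' g : O) (x : OctL O a1 b1 c1),
      u (zFun ρ' (r • 1 + r' • ⟨0, 1, 0, 0⟩) (r0 • 1 + r0' • ⟨0, 1, 0, 0⟩) g x) =
        zFun ρ' (r • 1 + r' • p) (r0 • 1 + r0' • qup O w0) g (u x))
    (hw0 : w0.re = 0) (hN : w0.imJ ^ 2 - (a : k) * w0.imK ^ 2 ≠ 0)
    {F : Filter X} {f g : X → Oct a b c} (hf : TO Sk F f ⟨w0, 0⟩) (hg : TO Sk F g gl) :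
    ∃ v : X → OctL E1 a1 b1 c1,
      TO {w : E1 →+* ℂ | w.comp (algebraMap k E1) ∈ Sk} F v (ep α1 * gl) ∧
      (∀ᶠ x in F, v x ≠ 0) ∧ (∀ x, invo ι1 (v x) = -v x) ∧
      ∀ x, v x ≠ 0 → ∀ {b' c' : kˣ} {j l : Oct a b c}
        (h : Trip a b' c' gi j l) {w : Qt a b'}, f x = qemb gi j w → g x = l → w.re = 0 →
        w * w = (a1 : k) • (1 : Qt a b') → Pt ρ1 (v x) ∧ tQ O h (u (oO O (v x))) =
          -u (oO O (v x)) := by
  obtain ⟨x1, x2, hb⟩ := Sn.exists_base hα1 hut huz hw0 hN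
  obtain ⟨β, hβ⟩ : ∃ β, β = algebraMap E1 O α1 := ⟨_, rfl⟩
  rw [← hβ] at hb
  have hββ : β * β = algebraMap k O (a1 : k) := by
    rw [hβ, ← map_mul, hα1, ← IsScalarTower.algebraMap_apply]
  have hβ0 : β ≠ 0 := by
    rintro rfl
    rw [mul_zero] at hββ
    exact (map_ne_zero (algebraMap k O)).2 a1.ne_zero hββ.symm
  have hσβ : σ' β = β := by rw [hβ, hσ1]
  have hρβ : ρ' β = β := by rw [hβ, hρ1, hρα]
  have hιβ : ι' β = β := by rw [hβ, hι1, hια]
  obtain ⟨SO, hSO⟩ : ∃ SO : Set (O →+* ℂ), SO = {W | W.comp (algebraMap k O) ∈ Sk} := ⟨_, rfl⟩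
  have hup : ∀ W ∈ SO, W.comp (algebraMap k O) ∈ Sk := fun W hW => by
    rw [hSO] at hW
    exact hW
  have hSa : ∀ τ : O ≃ₐ[k] O, ∀ W ∈ SO, W.comp (τ : O →+* O) ∈ SO := fun τ W hW => by
    rw [hSO] at hW ⊢
    have h1 : (W.comp (τ : O →+* O)).comp (algebraMap k O) = W.comp (algebraMap k O) := by
      apply RingHom.ext
      intro t
      change W (τ (algebraMap k O t)) = W (algebraMap k O t)
      rw [τ.commutes]
    change (W.comp (τ : O →+* O)).comp (algebraMap k O) ∈ Sk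
    rw [h1]
    exact hW
  have hdn : ∀ w ∈ {w : E1 →+* ℂ | w.comp (algebraMap k E1) ∈ Sk}, ∃ W ∈ SO,
      W.comp (algebraMap E1 O) = w := by
    intro w hw
    obtain ⟨W, hW⟩ := hext w
    refine ⟨W, ?_, hW⟩
    rw [hSO]
    change W.comp (algebraMap k O) ∈ Sk
    have h1 : W.comp (algebraMap k O) = w.comp (algebraMap k E1) := by
      rw [← hW]
      apply RingHom.ext
      intro t
      change W (algebraMap k O t) = W (algebraMap E1 O (algebraMap k E1 t))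
      rw [← IsScalarTower.algebraMap_apply]
    rw [h1]
    exact hw
  have hne1 : {w : E1 →+* ℂ | w.comp (algebraMap k E1) ∈ Sk}.Nonempty := by
    obtain ⟨w, hw⟩ := hne
    obtain ⟨W, hW⟩ := hextk w
    exact ⟨W, by
      change W.comp (algebraMap k E1) ∈ Sk
      rw [hW]
      exact hw⟩
  have oo : ∀ x : OctL O a1 b1 c1, omap σ' (omap σ' x) = x := fun x => by
    ext1 <;> ext <;> simp [omap, σ2]
  have i2 : ∀ t, ι1 (ι1 t) = t := fun t => by
    apply (algebraMap E1 O).injective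
    rw [← hι1, ← hι1, ι2]
  -- the vectors
  obtain ⟨y, hy⟩ : ∃ y : X → OctL O a b c, y = fun x => Sn.vec β x1 x2 (f x) (g x) := ⟨_, rfl⟩
  obtain ⟨U, hU⟩ : ∃ U : X → OctL O a1 b1 c1, U = fun x => (1 / 2 : O) •
    (u.symm (y x) + omap σ' (u.symm (y x))) := ⟨_, rfl⟩
  obtain ⟨V, hV⟩ : ∃ V : X → OctL O a1 b1 c1, V = fun x => (1 / 2 : O) •
    (U x - invo ι' (U x)) := ⟨_, rfl⟩
  have h2τ : ∀ τ : O ≃ₐ[k] O, τ (1 / 2) = 1 / 2 := fun τ => by
    rw [map_div₀, map_one, map_ofNat]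
  have hUσ : ∀ x, omap σ' (U x) = U x := by
    intro x
    rw [hU]
    change omap σ' ((1 / 2 : O) • _) = _
    rw [omap_smul, h2τ, omap_add, oo, add_comm]
  have hVσ : ∀ x, omap σ' (V x) = V x := by
    intro x
    rw [hV]
    change omap σ' ((1 / 2 : O) • _) = _
    rw [omap_smul, h2τ, omap_sub, invo_omap ισ, hUσ]
  have hVι : ∀ x, invo ι' (V x) = -V x := by
    intro x
    rw [hV]
    change invo ι' ((1 / 2 : O) • _) = -((1 / 2 : O) • _)
    rw [invo_smul', h2τ, invo_sub', invo_invo' ι2, ← smul_neg, neg_sub]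
  choose v hv using fun x => exists_oO hfix (hVσ x)
  have hylim : TO SO F y (u (oO O (ep α1 * gl))) := by
    rw [hb, hy]
    exact Sn.vec_lim hup β x1 x2 hf hg
  have hulim : TO SO F (fun x => u.symm (y x)) (oO O (ep α1 * gl : OctL E1 a1 b1 c1)) := by
    have h1 := hylim.lin (u.symm : OctL O a b c →ₗ[O] OctL O a1 b1 c1)
    have h2 : (u.symm : OctL O a b c →ₗ[O] OctL O a1 b1 c1) (u (oO O (ep α1 * gl))) =
        oO O (ep α1 * gl) := u.symm_apply_apply _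
    rw [h2] at h1
    exact h1
  have hhalf : ∀ z : OctL O a1 b1 c1, (1 / 2 : O) • (z + z) = z := fun z => by
    rw [← two_smul O, smul_smul, one_div_mul_cancel (NeZero.ne (2 : O)), one_smul]
  have hUlim : TO SO F U (oO O (ep α1 * gl : OctL E1 a1 b1 c1)) := by
    have h2 : oO O (ep α1 * gl : OctL E1 a1 b1 c1) = (1 / 2 : O) •
        (oO O (ep α1 * gl) + omap σ' (oO O (ep α1 * gl))) := by
      have h3 : omap σ' (oO O (ep α1 * gl : OctL E1 a1 b1 c1)) = oO O (ep α1 * gl) := by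
        have h4 := omap_oO (ρ := (AlgEquiv.refl : E1 ≃ₐ[k] E1)) (ρ' := σ') hσ1
          (ep α1 * gl : OctL E1 a1 b1 c1)
        rw [h4]
        rfl
      rw [h3, hhalf]
    rw [hU, h2]
    exact TO.smul (TE.const _ _ _) (hulim.add (hulim.omap (hSa σ')))
  have hVlim : TO SO F (fun x => oO O (v x)) (oO O (ep α1 * gl : OctL E1 a1 b1 c1)) := by
    have h1 : (fun x => oO O (v x)) = fun x => (1 / 2 : O) • (U x - invo ι' (U x)) := by
      funext x
      rw [hv, hV]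
    have h2 : oO O (ep α1 * gl : OctL E1 a1 b1 c1) = (1 / 2 : O) •
        (oO O (ep α1 * gl) - invo ι' (oO O (ep α1 * gl))) := by
      rw [invo_oO hι1, invo_std hια, oO_neg, sub_neg_eq_add, hhalf]
    rw [h1, h2]
    exact TO.smul (TE.const _ _ _) (hUlim.sub (hUlim.invo (hSa ι')))
  have hvlim := TO.down hdn hVlim
  refine ⟨v, hvlim, ?_, fun x => ?_, fun x hx0 => ?_⟩
  · have h1 : TE {w : E1 →+* ℂ | w.comp (algebraMap k E1) ∈ Sk} F (fun x => (v x).snd.re)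
      (ep α1 * gl : OctL E1 a1 b1 c1).snd.re := hvlim.2.1
    have h2 : (ep α1 * gl : OctL E1 a1 b1 c1).snd.re ≠ 0 := by
      have h3 : (ep α1 * gl : OctL E1 a1 b1 c1).snd = (ep α1 : OctL E1 a1 b1 c1).fst := by
        change 1 * _ + 0 * star _ = _
        rw [one_mul, zero_mul, add_zero]
      rw [h3]
      exact one_div_ne_zero (NeZero.ne (2 : E1))
    filter_upwards [h1.eventually_ne hne1 h2] with x hx h3
    exact hx (by rw [h3]; rfl)
  · apply oO_inj (O := O)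
    rw [← invo_oO hι1, hv, hVι, oO_neg, hv]
  · intro b' c' j l h w hfx hgx hw0' hww
    have hyS : InS β h w (y x) := by
      refine ⟨⟨x1, x2, 0, 0⟩, ?_⟩
      rw [hy, ← Sn.vec_trip]
      change Sn.vec β x1 x2 (f x) (g x) = _
      rw [hfx, hgx]
    have hss : ∀ z, InS β h w (u z) → InS β h w (u (omap σ' z)) := by
      intro z hz
      have h1 := (hz.Jq_mem (σ' := σ') (α := γ) hσβ r r').smul s⁻¹
      rwa [hu2, smul_smul, inv_mul_cancel₀ hs, one_smul] at h1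
    have hsi : ∀ z, InS β h w (u z) → InS β h w (u (invo ι' z)) := by
      intro z hz
      have h1 := (inS_invo (ι' := ι') hz hιβ).smul m⁻¹
      rwa [hu3, smul_smul, inv_mul_cancel₀ hm, one_smul] at h1
    have hUS : InS β h w (u (U x)) := by
      rw [hU]
      change InS β h w (u ((1 / 2 : O) • _))
      rw [map_smul, map_add]
      have h1 : InS β h w (u (u.symm (y x))) := by
        rw [u.apply_symm_apply]
        exact hyS
      exact (h1.add (hss _ h1)).smul _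
    have hxS : InS β h w (u (oO O (v x))) := by
      rw [hv, hV]
      change InS β h w (u ((1 / 2 : O) • (U x - invo ι' (U x))))
      rw [map_smul, sub_eq_add_neg, ← neg_one_smul O (invo ι' (U x)), map_add, map_smul]
      exact (hUS.add ((hsi _ hUS).smul _)).smul _
    refine ⟨⟨hx0, ?_⟩, hxS.tQ_eq⟩
    apply oO_inj (O := O)
    rw [oO_zero, ← tri_oO hρ1]
    apply u.injective
    have h1 := hu1 (oO O (v x)) (oO O (v x))
    rw [hxS.tri_self hρβ hw0' hww hββ hβ0] at h1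
    rw [map_zero]
    exact (smul_eq_zero.mp h1.symm).resolve_left he

/-- **The stable singular vector of an involution close to the standard one.** -/
theorem sing_nearI {Sk : Set (k →+* ℂ)} (hfin : Sk.Finite) (hne : Sk.Nonempty)
    (hext : ∀ w : E1 →+* ℂ, ∃ W : O →+* ℂ, W.comp (algebraMap E1 O) = w)
    (hextk : ∀ w : k →+* ℂ, ∃ W : E1 →+* ℂ, W.comp (algebraMap k E1) = w)
    {α1 : E1} (hα1 : α1 * α1 = algebraMap k E1 a1) (hρα : ρ1 α1 = α1) (hια : ι1 α1 = α1)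
    (hρ1 : ∀ t, ρ' (algebraMap E1 O t) = algebraMap E1 O (ρ1 t))
    (hσ1 : ∀ t, σ' (algebraMap E1 O t) = algebraMap E1 O t)
    (hι1 : ∀ t, ι' (algebraMap E1 O t) = algebraMap E1 O (ι1 t))
    (hfix : ∀ t, σ' t = t → ∃ s : E1, algebraMap E1 O s = t) (σ2 : ∀ t, σ' (σ' t) = t)
    (ι2 : ∀ t, ι' (ι' t) = t) (ισ : ∀ t, ι' (σ' t) = σ' (ι' t))
    {r r' : O} {u : OctL O a1 b1 c1 ≃ₗ[O] OctL O a b c} {e s m : O} (he : e ≠ 0) (hs : s ≠ 0)
    (hu1 : ∀ x y, tri ρ' (u x) (u y) = e • u (tri ρ' x y))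
    (hu2 : ∀ x, Jq σ' γ r r' (u x) = s • u (omap σ' x))
    (hm : m ≠ 0) (hu3 : ∀ x, invo ι' (u x) = m • u (invo ι' x))
    (hut : ∀ x, u (t0 O a1 b1 c1 x) = t0 O a b c (u x)) {w0 : Qt a b}
    {p : Qt (up O a) (up O b)}
    (huz : ∀ (r r' r0 r0' g : O) (x : OctL O a1 b1 c1),
      u (zFun ρ' (r • 1 + r' • ⟨0, 1, 0, 0⟩) (r0 • 1 + r0' • ⟨0, 1, 0, 0⟩) g x) =
        zFun ρ' (r • 1 + r' • p) (r0 • 1 + r0' • qup O w0) g (u x))
    (hw0 : w0.re = 0) (hN : w0.imJ ^ 2 - (a : k) * w0.imK ^ 2 ≠ 0)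
    {P : OctL E1 a1 b1 c1 → Prop}
    (hP : ∀ᶠ v in nh {w : E1 →+* ℂ | w.comp (algebraMap k E1) ∈ Sk} (ep α1 * gl), P v) :
    ∃ ε : ℝ, 0 < ε ∧ ∀ {b' c' : kˣ} {j l : Oct a b c} (h : Trip a b' c' gi j l) {w : Qt a b'},
      w.re = 0 → w * w = (a1 : k) • (1 : Qt a b') →
      (∀ τ ∈ Sk, on τ (qemb gi j w - ⟨w0, 0⟩) ≤ ε) → (∀ τ ∈ Sk, on τ (l - gl) ≤ ε) →
      ∃ v : OctL E1 a1 b1 c1, P v ∧ Pt ρ1 v ∧ invo ι1 v = -v ∧
        tQ O h (u (oO O v)) = -u (oO O v) := by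
  have hf : TO Sk (nh Sk (⟨w0, 0⟩ : Oct a b c) ×ˢ nh Sk (gl : Oct a b c)) Prod.fst ⟨w0, 0⟩ :=
    TO.comp tendsto_fst (TO_id Sk (⟨w0, 0⟩ : Oct a b c))
  have hg : TO Sk (nh Sk (⟨w0, 0⟩ : Oct a b c) ×ˢ nh Sk (gl : Oct a b c)) Prod.snd gl :=
    TO.comp tendsto_snd (TO_id Sk (gl : Oct a b c))
  obtain ⟨v, hv, hv0, hvi, hvp⟩ := sing_limI hne hext hextk hα1 hρα hια hρ1 hσ1 hι1 hfix σ2 ι2 ισ
    he hs hu1 hu2 hm hu3 hut huz hw0 hN hf hg
  have h1 := (hv.tendsto.eventually hP).and hv0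
  obtain ⟨pa, ha, pb, hb, hab⟩ := eventually_prod_iff.1 h1
  obtain ⟨ε1, h3, h4⟩ := exists_eps hfin ha
  obtain ⟨ε2, h5, h6⟩ := exists_eps hfin hb
  refine ⟨min ε1 ε2, lt_min h3 h5, fun {b' c' j l} h {w} hw1 hw2 hw3 hw4 => ?_⟩
  have h7 := hab (h4 (qemb gi j w) fun τ hτ => (hw3 τ hτ).trans (min_le_left _ _))
    (h6 l fun τ hτ => (hw4 τ hτ).trans (min_le_right _ _))
  have h8 := hvp (qemb gi j w, l) h7.2 h rfl rfl hw1 hw2
  exact ⟨_, h7.1, h8.1, hvi _, h8.2⟩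

end s3

end H63

end Vale.Agent.P011.D4Y
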